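import Vale.Agent.P042.Odd.Defs
import Vale.Agent.P042.Upper.Arcs

/-!
Exponential sums over the dilates: approximation on major arcs and the inverse Weyl inequality.
-/

open Finset Polynomial

namespace Vale.Agent.P042.Odd

open Vale.Agent.P042.Upper

noncomputable section

/-- The average of `e (θ h (e x))` over the block `x ∈ (M, 2M]`, `M = 2 ^ m / e`. -/
def blockAvg (h : ℤ[X]) (θ : ℝ) (m e : ℕ) : ℂ :=
  (∑ x ∈ range (2 ^ m / e),
    ee (θ * (h.eval ((e * (2 ^ m / e + 1 + x) : ℕ) : ℤ) : ℤ))) / (2 ^ m / e : ℕ)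

/-- The size of a polynomial. -/
def lipHeight (h : ℤ[X]) : ℝ :=
  ((h.natDegree : ℝ) + 1) * ∑ i ∈ range (h.natDegree + 1), |(h.coeff i : ℝ)|

theorem lipHeight_nonneg (h : ℤ[X]) : 0 ≤ lipHeight h := by rw [lipHeight]; positivity

theorem abs_eval_sub_le (h : ℤ[X]) {x y L : ℕ} (hL : 1 ≤ L) (hx : x ≤ L) (hy : y ≤ L) :
    |((h.eval (x : ℤ) : ℤ) : ℝ) - ((h.eval (y : ℤ) : ℤ) : ℝ)| ≤
      lipHeight h * (L : ℝ) ^ (h.natDegree - 1) * |(x : ℝ) - y| := by
  rw [eval_eq_sum_range, eval_eq_sum_range]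
  push_cast
  rw [← sum_sub_distrib, lipHeight, mul_assoc, mul_assoc, sum_mul, mul_sum]
  refine (abs_sum_le_sum_abs _ _).trans (sum_le_sum fun i hi => ?_)
  have hid : i ≤ h.natDegree := Nat.lt_succ_iff.1 (mem_range.1 hi)
  have hL1 : (1 : ℝ) ≤ L := by exact_mod_cast hL
  have hmax : max |(x : ℝ)| |(y : ℝ)| ≤ L :=
    max_le (by rw [Nat.abs_cast]; exact_mod_cast hx) (by rw [Nat.abs_cast]; exact_mod_cast hy)
  have h2 : |(x : ℝ) ^ i - (y : ℝ) ^ i| ≤
      |(x : ℝ) - y| * ((h.natDegree : ℝ) + 1) * (L : ℝ) ^ (h.natDegree - 1) := by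
    refine (abs_pow_sub_pow_le _ _ i).trans ?_
    refine mul_le_mul (mul_le_mul_of_nonneg_left ?_ (abs_nonneg _)) ?_ (by positivity)
      (by positivity)
    · have : (i : ℝ) ≤ h.natDegree := by exact_mod_cast hid
      linarith
    · exact (pow_le_pow_left₀ (le_max_of_le_left (abs_nonneg _)) hmax _).trans
        (pow_le_pow_right₀ hL1 (Nat.sub_le_sub_right hid 1))
  rw [← mul_sub, abs_mul]
  refine (mul_le_mul_of_nonneg_left h2 (abs_nonneg _)).trans (le_of_eq ?_)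
  ring

theorem norm_ee_sub_ee_le (s t : ℝ) : ‖ee s - ee t‖ ≤ 2 * Real.pi * |s - t| := by
  have h1 : ee s - ee t = ee t * (ee (s - t) - 1) := by
    rw [mul_sub, ← ee_add, mul_one, add_sub_cancel]
  rw [h1, norm_mul, norm_ee, one_mul]
  exact norm_ee_sub_one_le _

theorem norm_sum_sub_sum_le {s t : Finset ℕ} (f : ℕ → ℂ) (hf : ∀ x, ‖f x‖ ≤ 1) :
    ‖∑ x ∈ s, f x - ∑ x ∈ t, f x‖ ≤ ((s \ t).card : ℝ) + (t \ s).card := by
  rw [← sum_sdiff_sub_sum_sdiff]
  refine (norm_sub_le _ _).trans (add_le_add ?_ ?_) <;>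
    exact (norm_sum_le _ _).trans ((sum_le_card_nsmul _ _ (1 : ℝ) fun x _ => hf x).trans (by simp))

/-- On a major arc the block average of a dilate is the complete sum times the plain average. -/
theorem major_approx (h : ℤ[X]) (hk1 : 1 ≤ h.natDegree) : ∃ C : ℝ, 0 ≤ C ∧
    ∀ (a : ℤ) (q : ℕ), 1 ≤ q → ∀ (β : ℝ) (e : ℕ), 1 ≤ e → ∀ m : ℕ, 2 * e ≤ 2 ^ m →
      ‖blockAvg h ((a : ℝ) / q + β) m e - gauss (dil h e) a q * phi h β m‖ ≤
        C * q * e * (1 + |β| * (2 : ℝ) ^ (m * h.natDegree)) / (2 : ℝ) ^ m := by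
  set k := h.natDegree with hk
  set H := lipHeight h with hH
  refine ⟨8 + 5 * (2 * Real.pi * H * (4 : ℝ) ^ (k - 1)), by
    have := lipHeight_nonneg h; positivity, fun a q hq β e he m hem => ?_⟩
  set P : ℕ := 2 ^ m with hP
  set M : ℕ := P / e with hM
  have hPpos : 0 < P := pow_pos two_pos m
  have hM1 : 2 ≤ M := (Nat.le_div_iff_mul_le he).2 (by linarith)
  have heM : e * M ≤ P := Nat.mul_div_le P e
  have hPlt : P < e * M + e := by
    have := Nat.lt_mul_div_succ P (show 0 < e by omega)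
    rwa [mul_add, mul_one] at this
  have hH0 : 0 ≤ H := lipHeight_nonneg h
  set f : ℕ → ℂ := fun n => ee (β * (h.eval (n : ℤ) : ℤ)) with hf
  have hf1 : ∀ n, ‖f n‖ ≤ 1 := fun n => (norm_ee _).le
  set Lp : ℝ := 2 * Real.pi * |β| * H * ((4 * P : ℕ) : ℝ) ^ (k - 1) with hLp
  have hLp0 : 0 ≤ Lp := by positivity
  have hlip : ∀ x y : ℕ, x ≤ 4 * P → y ≤ 4 * P → ‖f x - f y‖ ≤ Lp * |(x : ℝ) - y| := by
    intro x y hx hy
    refine (norm_ee_sub_ee_le _ _).trans ?_
    rw [← mul_sub, abs_mul, hLp]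
    calc 2 * Real.pi * (|β| * |((h.eval (x : ℤ) : ℤ) : ℝ) - ((h.eval (y : ℤ) : ℤ) : ℝ)|)
        ≤ 2 * Real.pi * (|β| * (H * ((4 * P : ℕ) : ℝ) ^ (k - 1) * |(x : ℝ) - y|)) := by
          gcongr
          exact abs_eval_sub_le h (by omega) hx hy
      _ = _ := by ring
  set g : ℕ → ℕ := fun x => e * (M + 1 + x) with hg
  have hgP : ∀ x, x ≤ M → g x ≤ 4 * P := fun x hx => by
    calc e * (M + 1 + x) ≤ e * (3 * M) := Nat.mul_le_mul_left _ (by omega)
      _ ≤ 4 * P := by linarith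
  -- the phases with periodic part removed
  set S := gauss (dil h e) a q with hS
  have hS1 : ‖S‖ ≤ 1 := Local.norm_gauss_le_one _ _ _
  set w : ℕ → ℂ := fun x => if x < M then f (g x) else 0 with hw
  set v : ℕ → ℂ := fun x =>
    ee (((a * (dil h e).eval ((M + 1 + x : ℕ) : ℤ) : ℤ) : ℝ) / q) - S with hv
  have hw1 : ∀ x, ‖w x‖ ≤ 1 := fun x => by
    simp only [hw]; split_ifs
    · exact hf1 _
    · simp
  have hsplit : ∑ x ∈ range M, ee (((a : ℝ) / q + β) * (h.eval ((g x : ℕ) : ℤ) : ℤ)) =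
      S * (∑ x ∈ range M, f (g x)) + ∑ x ∈ range M, w x * v x := by
    rw [mul_sum, ← sum_add_distrib]
    refine sum_congr rfl fun x hx => ?_
    simp only [hw, hv, if_pos (mem_range.1 hx), hf]
    rw [mul_sub, mul_comm S, add_sub_cancel, ← ee_add, eval_dil]
    congr 1
    simp only [hg]
    push_cast
    ring
  have hab : ‖∑ x ∈ range M, w x * v x‖ ≤ 2 * q * (1 + Lp * P) := by
    refine (abel_bound w v (phase_window (dil h e) a hq (M + 1)) hw1 M).trans ?_
    refine mul_le_mul_of_nonneg_left (add_le_add le_rfl ?_) (by positivity)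
    refine (sum_le_card_nsmul _ _ (Lp * e) fun x hx => ?_).trans ?_
    · have hxM : x + 1 < M := by have := mem_range.1 hx; omega
      simp only [hw, if_pos hxM, if_pos (Nat.lt_of_succ_lt hxM)]
      refine (hlip _ _ (hgP _ hxM.le) (hgP _ (Nat.lt_of_succ_lt hxM).le)).trans (le_of_eq ?_)
      simp only [hg]
      push_cast
      rw [show (e : ℝ) * (M + 1 + (x + 1)) - e * (M + 1 + x) = e by ring, Nat.abs_cast]
    · rw [card_range, nsmul_eq_mul]
      have h1 : ((M - 1 : ℕ) : ℝ) * e ≤ P := by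
        have h2 : (M - 1) * e ≤ P := by
          rw [mul_comm]; exact (Nat.mul_le_mul_left _ (Nat.sub_le M 1)).trans heM
        exact_mod_cast h2
      calc ((M - 1 : ℕ) : ℝ) * (Lp * e) = Lp * (((M - 1 : ℕ) : ℝ) * e) := by ring
        _ ≤ Lp * P := mul_le_mul_of_nonneg_left h1 hLp0
  -- blocks of length `e`
  set T : ℂ := ∑ n ∈ range (e * M), f (e * M + 1 + n) with hT
  have hblock : ‖(e : ℂ) * ∑ x ∈ range M, f (g x) - T‖ ≤ (e * M : ℕ) * (Lp * e) := by
    rw [hT, Local.sum_range_split e M (by omega), sum_comm, mul_sum, ← sum_sub_distrib]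
    refine (norm_sum_le _ _).trans ((sum_le_card_nsmul _ _ ((e : ℝ) * (Lp * e)) fun x hx => ?_).trans
      (le_of_eq (by rw [card_range, nsmul_eq_mul]; push_cast; ring)))
    have hxM := mem_range.1 hx
    have hc : (e : ℂ) * f (g x) = ∑ _j ∈ range e, f (g x) := by simp
    rw [hc, ← sum_sub_distrib]
    refine (norm_sum_le _ _).trans ((sum_le_card_nsmul _ _ (Lp * e) fun j hj => ?_).trans
      (le_of_eq (by rw [card_range, nsmul_eq_mul])))
    have hje := mem_range.1 hj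
    have hy : e * M + 1 + (j + e * x) ≤ g x := by
      simp only [hg]; rw [mul_add, mul_add, mul_one]; omega
    refine (hlip _ _ (hgP _ hxM.le) (hy.trans (hgP _ hxM.le))).trans
      (mul_le_mul_of_nonneg_left ?_ hLp0)
    simp only [hg]
    push_cast
    have : (j : ℝ) + 1 ≤ e := by exact_mod_cast hje
    rw [abs_of_nonneg (by nlinarith [Nat.cast_nonneg (α := ℝ) j])]
    nlinarith [Nat.cast_nonneg (α := ℝ) j]
  set U : ℂ := ∑ n ∈ Ioc P (2 * P), f n with hU
  have hshift : ‖T - U‖ ≤ 3 * e := by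
    have hTI : T = ∑ n ∈ Ioc (e * M) (2 * (e * M)), f n := by
      rw [hT, show Ioc (e * M) (2 * (e * M)) = Ico (e * M + 1) (2 * (e * M) + 1) by
        ext n; simp only [mem_Ioc, mem_Ico]; omega, sum_Ico_eq_sum_range,
        show 2 * (e * M) + 1 - (e * M + 1) = e * M by omega]
    rw [hTI, hU]
    refine (norm_sum_sub_sum_le f hf1).trans ?_
    have h1 : (Ioc (e * M) (2 * (e * M)) \ Ioc P (2 * P)).card ≤ e := by
      refine (card_le_card (t := Ioc (e * M) P) ?_).trans (by simp; omega)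
      intro n; simp only [mem_sdiff, mem_Ioc]; omega
    have h2 : (Ioc P (2 * P) \ Ioc (e * M) (2 * (e * M))).card ≤ 2 * e := by
      refine (card_le_card (t := Ioc (2 * (e * M)) (2 * P)) ?_).trans (by simp; omega)
      intro n; simp only [mem_sdiff, mem_Ioc]; omega
    have h1' : ((Ioc (e * M) (2 * (e * M)) \ Ioc P (2 * P)).card : ℝ) ≤ e := by exact_mod_cast h1
    have h2' : ((Ioc P (2 * P) \ Ioc (e * M) (2 * (e * M))).card : ℝ) ≤ 2 * e := by exact_mod_cast h2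
    linarith
  -- combine
  have hMR : (0 : ℝ) < M := by exact_mod_cast (by omega : 0 < M)
  have hPR : (0 : ℝ) < P := by exact_mod_cast hPpos
  have heR : (1 : ℝ) ≤ e := by exact_mod_cast he
  have hMe : (P : ℝ) ≤ 2 * ((e : ℝ) * M) := by
    have h1 : P ≤ 2 * (e * M) := by
      have : e ≤ e * M := Nat.le_mul_of_pos_right _ (by omega)
      omega
    exact_mod_cast h1
  set Sg : ℂ := ∑ x ∈ range M, f (g x) with hSg
  have hSg1 : ‖Sg‖ ≤ M := (norm_sum_le _ _).trans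
    ((sum_le_card_nsmul _ _ (1 : ℝ) fun x _ => hf1 _).trans (by simp))
  have hphi : phi h β m = U / (P : ℂ) := by
    rw [phi, hU, hP, pow_succ, mul_comm (2 ^ m) 2]; push_cast; rfl
  have hb : blockAvg h ((a : ℝ) / q + β) m e =
      S * (Sg / (M : ℂ)) + (∑ x ∈ range M, w x * v x) / (M : ℂ) := by
    rw [blockAvg, ← hP, ← hM, ← mul_div_assoc, ← add_div, ← hsplit]
  have hmain : ‖Sg / (M : ℂ) - U / (P : ℂ)‖ ≤ (e : ℝ) * (4 + Lp * P) / P := by
    have hid : Sg / (M : ℂ) - U / (P : ℂ) =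
        ((((e : ℂ) * Sg - T) + (T - U)) + ((P : ℂ) - (e : ℂ) * M) * (Sg / M)) / P := by
      have : (M : ℂ) ≠ 0 := Nat.cast_ne_zero.2 (by omega)
      have : (P : ℂ) ≠ 0 := Nat.cast_ne_zero.2 (by omega)
      field_simp
      ring
    rw [hid, norm_div, Complex.norm_natCast]
    refine div_le_div_of_nonneg_right ?_ hPR.le
    refine (norm_add_le _ _).trans ((add_le_add (norm_add_le _ _) le_rfl).trans ?_)
    have h1 : ‖((P : ℂ) - (e : ℂ) * M) * (Sg / M)‖ ≤ e := by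
      rw [norm_mul, norm_div, Complex.norm_natCast,
        show (P : ℂ) - (e : ℂ) * M = ((P - e * M : ℕ) : ℂ) by
          rw [Nat.cast_sub heM, Nat.cast_mul],
        Complex.norm_natCast]
      calc ((P - e * M : ℕ) : ℝ) * (‖Sg‖ / M) ≤ (e : ℝ) * 1 :=
            mul_le_mul (by exact_mod_cast (by omega : P - e * M ≤ e))
              ((div_le_one hMR).2 hSg1) (by positivity) (by positivity)
        _ = e := mul_one _
    have h2 : ((e * M : ℕ) : ℝ) * (Lp * e) ≤ P * (Lp * e) :=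
      mul_le_mul_of_nonneg_right (by exact_mod_cast heM) (by positivity)
    linarith
  have hLpP : Lp * P ≤ 2 * Real.pi * H * (4 : ℝ) ^ (k - 1) * (1 + |β| * (2 : ℝ) ^ (m * k)) := by
    rw [hLp, pow_mul, show ((2 : ℝ) ^ m) = (P : ℝ) by rw [hP]; push_cast; rfl]
    push_cast
    rw [mul_pow]
    rcases Nat.eq_zero_or_pos k with h0 | h0
    · exact absurd h0 (Nat.ne_of_gt hk1)
    · have hpk : (P : ℝ) ^ (k - 1) * P = (P : ℝ) ^ k := by
        rw [← pow_succ, Nat.sub_add_cancel h0]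
      calc 2 * Real.pi * |β| * H * ((4 : ℝ) ^ (k - 1) * (P : ℝ) ^ (k - 1)) * P
          = 2 * Real.pi * H * (4 : ℝ) ^ (k - 1) * (|β| * ((P : ℝ) ^ (k - 1) * P)) := by ring
        _ ≤ _ := by
            rw [hpk]
            exact mul_le_mul_of_nonneg_left (le_add_of_nonneg_left zero_le_one) (by positivity)
  have hPm : (P : ℝ) = (2 : ℝ) ^ m := by rw [hP]; push_cast; rfl
  set Z : ℝ := 1 + |β| * (2 : ℝ) ^ (m * k) with hZ
  have hZ1 : 1 ≤ Z := le_add_of_nonneg_right (by positivity)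
  set K0 : ℝ := 2 * Real.pi * H * (4 : ℝ) ^ (k - 1) with hK0
  have hqR : (1 : ℝ) ≤ q := by exact_mod_cast hq
  rw [hb, hphi, ← hPm,
    show S * (Sg / (M : ℂ)) + (∑ x ∈ range M, w x * v x) / (M : ℂ) - S * (U / (P : ℂ)) =
      S * (Sg / (M : ℂ) - U / (P : ℂ)) + (∑ x ∈ range M, w x * v x) / (M : ℂ) by ring]
  refine (norm_add_le _ _).trans ?_
  rw [norm_mul, norm_div, Complex.norm_natCast]
  refine (add_le_add ((mul_le_of_le_one_left (norm_nonneg _) hS1).trans hmain)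
    ((div_le_div_of_nonneg_right hab hMR.le).trans ?_)).trans
      (b := (e : ℝ) * (4 + Lp * P) / P + 4 * q * e * (1 + Lp * P) / P) ?_
  · rw [div_le_div_iff₀ hMR hPR]
    calc 2 * (q : ℝ) * (1 + Lp * P) * P ≤ 2 * q * (1 + Lp * P) * (2 * ((e : ℝ) * M)) :=
          mul_le_mul_of_nonneg_left hMe (by positivity)
      _ = _ := by ring
  · rw [← add_div]
    refine div_le_div_of_nonneg_right ?_ hPR.le
    calc (e : ℝ) * (4 + Lp * P) + 4 * q * e * (1 + Lp * P)
        ≤ (q : ℝ) * e * (4 + Lp * P) + 4 * q * e * (1 + Lp * P) :=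
          add_le_add (mul_le_mul_of_nonneg_right
            (le_mul_of_one_le_left (by positivity) hqR) (by positivity)) le_rfl
      _ = (q : ℝ) * e * (8 + 5 * (Lp * P)) := by ring
      _ ≤ (q : ℝ) * e * ((8 + 5 * K0) * Z) := by
          refine mul_le_mul_of_nonneg_left ?_ (by positivity)
          nlinarith
      _ = _ := by ring

/-- Inverse Weyl inequality for the block averages. -/
theorem minor_arcs (h : ℤ[X]) {k : ℕ} (hk : h.natDegree = k) (hk1 : 1 ≤ k)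
    (hlead : 0 < h.leadingCoeff) :
    ∃ (A : ℝ) (w : ℕ), 1 ≤ A ∧ ∀ η : ℝ, 0 < η → η ≤ 1 → ∀ e m : ℕ, 1 ≤ e → 2 * e ≤ 2 ^ m →
      ∀ θ : ℝ, η ≤ ‖blockAvg h θ m e‖ →
        ∃ (a : ℤ) (q : ℕ) (β : ℝ), 1 ≤ q ∧ Int.gcd a q = 1 ∧ θ = (a : ℝ) / q + β ∧
          (q : ℝ) ≤ A * (e : ℝ) ^ k / η ^ w ∧
          |β| * (2 : ℝ) ^ (m * k) ≤ A * (e : ℝ) ^ k / η ^ w := by
  obtain ⟨A, w, hA, hW⟩ := weyl_inverse k hk1
  set c := h.leadingCoeff with hc
  have hcR : (1 : ℝ) ≤ c := by exact_mod_cast hlead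
  refine ⟨A * (c + 2 ^ k), w, ?_, fun η hη hη1 e m he hem θ hθ => ?_⟩
  · have : (0 : ℝ) ≤ 2 ^ k := by positivity
    nlinarith
  set M := 2 ^ m / e with hM
  have hM1 : 2 ≤ M := (Nat.le_div_iff_mul_le he).2 (by linarith)
  have hMR : (0 : ℝ) < M := by exact_mod_cast (by omega : 0 < M)
  set p : ℝ[X] := Polynomial.C θ * taylor ((M : ℝ) + 1) ((dil h e).map (Int.castRingHom ℝ)) with hp
  have hdd : (dil h e).natDegree ≤ k := by
    rw [dil]
    refine natDegree_comp_le.trans ?_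
    have h2 : (Polynomial.C (e : ℤ) * X).natDegree ≤ 1 :=
      (natDegree_C_mul_le _ _).trans natDegree_X_le
    calc _ ≤ h.natDegree * 1 := Nat.mul_le_mul_left _ h2
      _ ≤ k := by rw [mul_one, hk]
  have hpd : p.natDegree ≤ k := by
    refine (natDegree_C_mul_le _ _).trans ?_
    rw [natDegree_taylor]
    exact natDegree_map_le.trans hdd
  have hpc : p.coeff k = θ * ((c : ℝ) * (e : ℝ) ^ k) := by
    rw [hp, coeff_C_mul, taylor_coeff]
    congr 1
    have hd : (hasseDeriv k ((dil h e).map (Int.castRingHom ℝ))).natDegree ≤ 0 :=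
      (natDegree_hasseDeriv_le _ k).trans (by
        have := natDegree_map_le (f := Int.castRingHom ℝ) (p := dil h e); omega)
    rw [eq_C_of_natDegree_le_zero hd, eval_C, hasseDeriv_coeff]
    rw [Polynomial.coeff_map, zero_add, dil, comp_C_mul_X_coeff, hc, leadingCoeff, hk]
    simp
  have hpe : ∀ n : ℕ, p.eval (n : ℝ) = θ * (h.eval ((e * (M + 1 + n) : ℕ) : ℤ) : ℤ) := by
    intro n
    rw [hp, eval_mul, eval_C, taylor_eval]
    congr 1
    have h1 : (((M + 1 + n : ℕ) : ℤ) : ℝ) = (n : ℝ) + ((M : ℝ) + 1) := by push_cast; ring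
    rw [← h1]
    refine (eval_intCast_map (Int.castRingHom ℝ) (dil h e) _).trans ?_
    rw [eval_dil]
    norm_num
  have hS : η * M ≤ ‖∑ n ∈ range M, ee (p.eval (n : ℝ))‖ := by
    rw [blockAvg, ← hM, norm_div, Complex.norm_natCast, le_div_iff₀ hMR] at hθ
    simpa only [hpe] using hθ
  obtain ⟨q₁, hq₁, hq₁A, z, hz⟩ := hW η hη hη1 M (by omega) p hpd hS
  rw [hpc] at hz
  set Q : ℕ := q₁ * c.toNat * e ^ k with hQ
  have hcc : ((c.toNat : ℕ) : ℝ) = (c : ℝ) := by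
    rw [← Int.cast_natCast, Int.toNat_of_nonneg hlead.le]
  have hQR : (Q : ℝ) = (q₁ : ℝ) * ((c : ℝ) * (e : ℝ) ^ k) := by
    rw [hQ, Nat.cast_mul, Nat.cast_mul, hcc, Nat.cast_pow]; ring
  have hQ0 : 0 < Q := by
    rw [hQ]; exact Nat.mul_pos (Nat.mul_pos hq₁ (by omega)) (pow_pos he k)
  have hQR0 : (0 : ℝ) < Q := by exact_mod_cast hQ0
  set r : ℚ := (z : ℚ) / (Q : ℚ) with hr
  have hqQ : r.den ≤ Q := by
    refine Nat.le_of_dvd hQ0 ?_
    have h1 : ((r.den : ℤ)) ∣ (Q : ℤ) := by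
      have h0 : r = Rat.divInt z (Q : ℤ) := by rw [hr, Rat.divInt_eq_div]; push_cast; rfl
      rw [h0]
      exact Rat.den_dvd z Q
    exact_mod_cast h1
  have hrR : (z : ℝ) / Q = (r.num : ℝ) / r.den := by
    rw [← Rat.cast_def, hr]; push_cast; rfl
  refine ⟨r.num, r.den, θ - (z : ℝ) / Q, r.pos, ?_, ?_, ?_, ?_⟩
  · rw [Int.gcd, Int.natAbs_natCast]; exact r.reduced
  · rw [← hrR]; ring
  · calc (r.den : ℝ) ≤ Q := by exact_mod_cast hqQ
      _ ≤ A / η ^ w * ((c : ℝ) * (e : ℝ) ^ k) := by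
          rw [hQR]; exact mul_le_mul_of_nonneg_right hq₁A (by positivity)
      _ ≤ A / η ^ w * ((c + 2 ^ k) * (e : ℝ) ^ k) := by
          gcongr; exact le_add_of_nonneg_right (by positivity)
      _ = _ := by ring
  · have hQ1 : (1 : ℝ) ≤ Q := by exact_mod_cast hQ0
    have hβ : |θ - (z : ℝ) / Q| ≤ A / η ^ w / (M : ℝ) ^ k := by
      rw [show θ - (z : ℝ) / Q = ((q₁ : ℝ) * (θ * ((c : ℝ) * (e : ℝ) ^ k)) - z) / Q by
        rw [eq_div_iff hQR0.ne', sub_mul, div_mul_cancel₀ _ hQR0.ne', hQR]; ring,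
        abs_div, abs_of_pos hQR0]
      exact (div_le_self (abs_nonneg _) hQ1).trans hz
    have hM2 : (2 : ℝ) ^ m ≤ 2 * e * M := by
      have h1 : 2 ^ m ≤ 2 * e * M := by
        have h2 := Nat.lt_mul_div_succ (2 ^ m) (show 0 < e by omega)
        rw [← hM, mul_add, mul_one] at h2
        have h3 : e ≤ e * M := Nat.le_mul_of_pos_right _ (by omega)
        rw [mul_assoc]; omega
      exact_mod_cast h1
    calc |θ - (z : ℝ) / Q| * (2 : ℝ) ^ (m * k)
        ≤ A / η ^ w / (M : ℝ) ^ k * (2 * e * M) ^ k := by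
          rw [pow_mul]; gcongr
      _ = A / η ^ w * (2 ^ k * (e : ℝ) ^ k) := by
          rw [mul_pow, mul_pow]; field_simp
      _ ≤ A / η ^ w * ((c + 2 ^ k) * (e : ℝ) ^ k) := by
          gcongr; linarith
      _ = _ := by ring

end

end Vale.Agent.P042.Odd
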