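import Vale.Agent.P042.Odd.Defs
import Vale.Agent.P042.Upper.WeylInverse

/-!
The mixture of scales has real part bounded below by a power saving.
-/

open Finset Polynomial

namespace Vale.Agent.P042.Odd

open Vale.Agent.P042.Upper

noncomputable section

/-- A sum over a dyadic block as a sum over an initial range. -/
theorem sum_block {M : Type*} [AddCommMonoid M] (m : ℕ) (f : ℕ → M) :
    ∑ n ∈ Ioc (2 ^ m) (2 ^ (m + 1)), f n = ∑ j ∈ range (2 ^ m), f (2 ^ m + 1 + j) := by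
  have hI : Ioc (2 ^ m) (2 ^ (m + 1)) = Ico (2 ^ m + 1) (2 ^ (m + 1) + 1) := by
    ext n
    simp only [mem_Ioc, mem_Ico]
    omega
  rw [hI, sum_Ico_eq_sum_range,
    show 2 ^ (m + 1) + 1 - (2 ^ m + 1) = 2 ^ m by rw [pow_succ]; omega]

theorem norm_phi_le_one (h : ℤ[X]) (β : ℝ) (m : ℕ) : ‖phi h β m‖ ≤ 1 := by
  rw [phi, sum_block, norm_div, norm_pow, Complex.norm_two, div_le_one (by positivity)]
  refine (norm_sum_le _ _).trans (le_of_eq ?_)
  simp [norm_ee]

/-- The total size of the coefficients of `h`. -/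
def height (h : ℤ[X]) : ℝ := ∑ i ∈ range (h.natDegree + 1), |(h.coeff i : ℝ)|

theorem one_le_height {h : ℤ[X]} (hlead : 0 < h.leadingCoeff) : 1 ≤ height h := by
  refine le_trans ?_ (Finset.single_le_sum (fun i _ => abs_nonneg ((h.coeff i : ℝ)))
    (Finset.self_mem_range_succ h.natDegree))
  have h1 : (1 : ℤ) ≤ |h.coeff h.natDegree| := by
    have h2 : 0 < h.coeff h.natDegree := hlead
    rw [abs_of_pos h2]
    omega
  exact_mod_cast h1

theorem abs_eval_le (h : ℤ[X]) {n : ℤ} (hn : 1 ≤ n) :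
    |((h.eval n : ℤ) : ℝ)| ≤ height h * (n : ℝ) ^ h.natDegree := by
  rw [eval_eq_sum_range, Int.cast_sum, height, Finset.sum_mul]
  refine (Finset.abs_sum_le_sum_abs _ _).trans (Finset.sum_le_sum fun i hi => ?_)
  push_cast
  rw [abs_mul, abs_pow, abs_of_nonneg (by exact_mod_cast (by omega : (0 : ℤ) ≤ n) : (0 : ℝ) ≤ (n : ℝ))]
  exact mul_le_mul_of_nonneg_left (pow_le_pow_right₀ (by exact_mod_cast hn)
    (by have := mem_range.1 hi; omega)) (abs_nonneg _)

/-- Small scales are positive. -/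
theorem half_le_re_phi (h : ℤ[X]) (β : ℝ) (m : ℕ)
    (hs : 2 * Real.pi * height h * 2 ^ h.natDegree * (|β| * (2 : ℝ) ^ (h.natDegree * m)) ≤ 1 / 2) :
    1 / 2 ≤ (phi h β m).re := by
  have hb : ∀ n ∈ Ioc ((2 : ℕ) ^ m) (2 ^ (m + 1)),
      (1 : ℝ) / 2 ≤ (ee (β * ((h.eval (n : ℤ) : ℤ) : ℝ))).re := by
    intro n hn
    have hn1 : (1 : ℤ) ≤ (n : ℤ) := by
      have := le_trans Nat.one_le_two_pow (mem_Ioc.1 hn).1.le
      omega
    have hn0 : (0 : ℝ) ≤ ((n : ℤ) : ℝ) := by exact_mod_cast (Nat.zero_le n)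
    have hle : ((n : ℤ) : ℝ) ≤ 2 ^ (m + 1) := by exact_mod_cast (mem_Ioc.1 hn).2
    have h1 := norm_ee_sub_one_le (β * ((h.eval (n : ℤ) : ℤ) : ℝ))
    have h2 : (1 - ee (β * ((h.eval (n : ℤ) : ℤ) : ℝ))).re ≤
        ‖ee (β * ((h.eval (n : ℤ) : ℤ) : ℝ)) - 1‖ := by
      rw [← norm_neg (ee _ - 1), neg_sub]
      exact Complex.re_le_norm _
    rw [Complex.sub_re, Complex.one_re] at h2
    have h3 : 2 * Real.pi * |β * ((h.eval (n : ℤ) : ℤ) : ℝ)| ≤ 1 / 2 := by
      refine le_trans ?_ hs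
      rw [abs_mul]
      have h4 : |((h.eval (n : ℤ) : ℤ) : ℝ)| ≤
          height h * (2 ^ h.natDegree * (2 : ℝ) ^ (h.natDegree * m)) := by
        refine (abs_eval_le h hn1).trans (mul_le_mul_of_nonneg_left
          ((pow_le_pow_left₀ hn0 hle _).trans (le_of_eq ?_))
          (Finset.sum_nonneg fun i _ => abs_nonneg _))
        rw [← pow_mul, ← pow_add]; congr 1; ring
      calc 2 * Real.pi * (|β| * |((h.eval (n : ℤ) : ℤ) : ℝ)|)
          ≤ 2 * Real.pi * (|β| * (height h * (2 ^ h.natDegree * (2 : ℝ) ^ (h.natDegree * m)))) := by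
            gcongr
        _ = _ := by ring
    linarith
  rw [phi, show (2 : ℂ) ^ m = (((2 : ℝ) ^ m : ℝ) : ℂ) by norm_cast, Complex.div_ofReal_re,
    Complex.re_sum, le_div_iff₀ (by positivity)]
  refine le_trans (le_of_eq ?_) (Finset.sum_le_sum hb)
  rw [sum_const, Nat.card_Ioc, nsmul_eq_mul, pow_succ 2 m,
    show 2 ^ m * 2 - 2 ^ m = 2 ^ m by omega]
  push_cast
  ring

/-- Weyl's inequality for one block. -/
theorem exists_block_inverse (h : ℤ[X]) {k : ℕ} (hk : h.natDegree = k) (hk1 : 1 ≤ k) :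
    ∃ (A : ℝ) (e : ℕ), 1 ≤ A ∧ 1 ≤ e ∧ ∀ (β : ℝ) (m : ℕ), 0 < ‖phi h β m‖ →
      ∃ q : ℕ, 1 ≤ q ∧ (q : ℝ) ≤ A / ‖phi h β m‖ ^ e ∧
        ∃ z : ℤ, |(q : ℝ) * (β * (h.leadingCoeff : ℝ)) - z| ≤
          A / ‖phi h β m‖ ^ e / ((2 : ℝ) ^ m) ^ k := by
  obtain ⟨A, e, hA, hW⟩ := weyl_inverse k hk1
  refine ⟨A, e + 1, hA, by omega, fun β m hpos => ?_⟩
  set η := ‖phi h β m‖ with hη
  have hη1 : η ≤ 1 := norm_phi_le_one h β m
  set g := h.map (Int.castRingHom ℝ)
  set p : ℝ[X] := Polynomial.C β * taylor ((2 : ℝ) ^ m + 1) g with hp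
  have hgd : g.natDegree = k :=
    (natDegree_map_eq_of_injective Int.cast_injective h).trans hk
  have hpd : p.natDegree ≤ k :=
    (natDegree_C_mul_le _ _).trans ((natDegree_taylor _ _).trans hgd).le
  have hpk : p.coeff k = β * (h.leadingCoeff : ℝ) := by
    rw [hp, Polynomial.coeff_C_mul]
    conv_lhs => rw [← hgd]
    rw [coeff_taylor_natDegree, leadingCoeff_map_of_injective Int.cast_injective]
    simp
  have heval : ∀ j : ℕ, p.eval (j : ℝ) = β * (h.eval ((2 ^ m + 1 + j : ℕ) : ℤ) : ℤ) := by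
    intro j
    rw [hp, eval_mul, eval_C, taylor_eval]
    congr 1
    have he : (j : ℝ) + ((2 : ℝ) ^ m + 1) =
        (Int.castRingHom ℝ) ((2 ^ m + 1 + j : ℕ) : ℤ) := by
      simp only [eq_intCast]; push_cast; ring
    rw [he, eval_map, eval₂_at_apply]
    simp
  have hS : η * ((2 ^ m : ℕ) : ℝ) ≤ ‖∑ j ∈ range (2 ^ m), ee (p.eval (j : ℝ))‖ := by
    simp only [heval]
    refine le_of_eq ?_
    rw [hη, phi, sum_block, norm_div, norm_pow, Complex.norm_two, Nat.cast_pow, Nat.cast_ofNat,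
      div_mul_cancel₀ _ (by positivity)]
  obtain ⟨q, hq1, hq, z, hz⟩ := hW η hpos hη1 (2 ^ m) Nat.one_le_two_pow p hpd hS
  have hmono : A / η ^ e ≤ A / η ^ (e + 1) :=
    div_le_div_of_nonneg_left (by linarith) (pow_pos hpos _)
      (pow_le_pow_of_le_one hpos.le hη1 (by omega))
  refine ⟨q, hq1, hq.trans hmono, z, ?_⟩
  rw [hpk, Nat.cast_pow, Nat.cast_ofNat] at hz
  exact hz.trans (by gcongr)

/-- A geometric mixture dominated by its first small scale. -/
theorem mix_lower {r σ M ε : ℝ} (hσ : 0 ≤ σ) (hσr : σ < r) (hr1 : r ≤ 1)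
    (hM : 2 * (1 - r) * M ≤ r - σ) (hε : 0 ≤ ε) {u J : ℕ} (hJ : J ≤ u + 1)
    {a : ℕ → ℝ} (h1 : ∀ i, i < J → -(M * σ ^ (J - 1 - i) + ε) ≤ a i)
    (h2 : ∀ i, J ≤ i → i ≤ u → 1 / 2 ≤ a i) :
    -(r ^ (u + 1) / 2 + ε) ≤ ∑ i ∈ range (u + 1), (1 - r) * r ^ i * a i := by
  have hr0 : 0 ≤ r := by linarith
  have hw : ∀ i : ℕ, 0 ≤ (1 - r) * r ^ i := fun i => mul_nonneg (by linarith) (pow_nonneg hr0 i)
  have hgeo : ∀ N : ℕ, ∑ i ∈ range N, (1 - r) * r ^ i = 1 - r ^ N := fun N => by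
    rw [← mul_sum]
    exact mul_neg_geom_sum r N
  rw [← Finset.sum_range_add_sum_Ico _ hJ]
  have hA : -((1 - r) * M * ∑ i ∈ range J, r ^ i * σ ^ (J - 1 - i)) - ε * (1 - r ^ J) ≤
      ∑ i ∈ range J, (1 - r) * r ^ i * a i := by
    rw [← hgeo J, mul_sum, mul_sum, ← sum_neg_distrib, ← sum_sub_distrib]
    refine sum_le_sum fun i hi => ?_
    refine le_trans (le_of_eq ?_) (mul_le_mul_of_nonneg_left (h1 i (mem_range.1 hi)) (hw i))
    ring
  have hB : (r ^ J - r ^ (u + 1)) / 2 ≤ ∑ i ∈ Ico J (u + 1), (1 - r) * r ^ i * a i := by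
    refine le_trans (le_of_eq ?_) (sum_le_sum fun i hi => mul_le_mul_of_nonneg_left
      (h2 i (mem_Ico.1 hi).1 (Nat.lt_succ_iff.1 (mem_Ico.1 hi).2)) (hw i))
    rw [← Finset.sum_mul, Finset.sum_Ico_eq_sub _ hJ, hgeo, hgeo]
    ring
  set S := ∑ i ∈ range J, r ^ i * σ ^ (J - 1 - i) with hS
  have hgs : S * (r - σ) = r ^ J - σ ^ J := geom_sum₂_mul r σ J
  have hS0 : 0 ≤ S := sum_nonneg fun i _ => by positivity
  have hkey : (1 - r) * M * S ≤ r ^ J / 2 := by
    have h3 : 2 * (1 - r) * M * S ≤ (r - σ) * S := mul_le_mul_of_nonneg_right hM hS0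
    have h4 : 0 ≤ σ ^ J := pow_nonneg hσ J
    linarith
  have hrJ : 0 ≤ ε * r ^ J := mul_nonneg hε (pow_nonneg hr0 J)
  linarith

/-- On major arcs the mixture of scales is at least `- C 2 ^ (- γ u)`. -/
theorem arch_main (h : ℤ[X]) {k : ℕ} (hk : h.natDegree = k) (hk1 : 1 ≤ k)
    (hlead : 0 < h.leadingCoeff) :
    ∃ δ γ : ℝ, 0 < δ ∧ 0 < γ ∧ ∀ (E : ℕ) (B : ℝ), 0 ≤ B → ∃ (K₀ : ℕ) (C : ℝ), 0 ≤ C ∧
      ∀ K u : ℕ, K₀ ≤ K → 1 ≤ u → ∀ β : ℝ,
        |β| * (2 : ℝ) ^ (k * (K * u)) ≤ B * (2 : ℝ) ^ (E * u) →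
        -(C * (2 : ℝ) ^ (-(γ * u))) ≤ arch h δ β K u := by
  obtain ⟨A, e, hA, he, hW⟩ := exists_block_inverse h hk hk1
  set H := height h with hH
  have hH1 : 1 ≤ H := one_le_height hlead
  set c : ℝ := (h.leadingCoeff : ℝ) with hc
  have hc1 : 1 ≤ c := by
    have : (1 : ℤ) ≤ h.leadingCoeff := hlead
    rw [hc]; exact_mod_cast this
  set c0 : ℝ := 1 / (4 * Real.pi * H * 2 ^ k) with hc0
  have hc0pos : 0 < c0 := by positivity
  set σ : ℝ := (((2 : ℝ) ^ k)⁻¹) ^ ((e : ℝ)⁻¹) with hσ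
  have he' : (0 : ℝ) < (e : ℝ)⁻¹ := by
    have : (0 : ℝ) < e := by exact_mod_cast he
    positivity
  have hσ0 : 0 < σ := by positivity
  have hσ1 : σ < 1 := Real.rpow_lt_one (by positivity)
    (inv_lt_one_of_one_lt₀ (one_lt_pow₀ (by norm_num) (by omega))) he'
  set M : ℝ := (A / c0) ^ ((e : ℝ)⁻¹) with hM
  have hM0 : 0 < M := Real.rpow_pos_of_pos (div_pos (by linarith) hc0pos) _
  set r : ℝ := (2 * M + σ) / (2 * M + 1) with hr
  have hr1 : r < 1 := by rw [hr, div_lt_one (by positivity)]; linarith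
  have hσr : σ < r := by
    rw [hr, lt_div_iff₀ (by positivity)]
    linarith [mul_lt_mul_of_pos_left hσ1 (show (0 : ℝ) < 2 * M by positivity)]
  have hr0 : 0 < r := hσ0.trans hσr
  have hMr : 2 * (1 - r) * M ≤ r - σ := by
    have h1 : r * (2 * M + 1) = 2 * M + σ := div_mul_cancel₀ _ (by positivity)
    linarith
  set δ : ℝ := -Real.logb 2 r with hδ
  have hδ0 : 0 < δ := by
    rw [hδ, neg_pos]
    exact Real.logb_neg (by norm_num) hr0 hr1
  have hrδ : (2 : ℝ) ^ (-δ) = r := by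
    rw [hδ, neg_neg, Real.rpow_logb (by norm_num) (by norm_num) hr0]
  refine ⟨δ, min δ 1, hδ0, lt_min hδ0 one_pos, fun E B hB => ?_⟩
  obtain ⟨L, hL⟩ := pow_unbounded_of_one_lt (2 * A * (c * B + 1)) (one_lt_two (α := ℝ))
  refine ⟨E + e + 1 + L, 2, by norm_num, fun K u hK hu β hβ => ?_⟩
  -- the scale parameters
  set t : ℕ → ℝ := fun i => |β| * (2 : ℝ) ^ (k * (K * u - i)) with ht
  have hphi : ∀ i, i ≤ u → 0 < t i →
      ‖phi h β (K * u - i)‖ ≤ (A / t i) ^ ((e : ℝ)⁻¹) + ((2 : ℝ) ^ u)⁻¹ := by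
    intro i hi hti
    set η := ‖phi h β (K * u - i)‖ with hη
    have hη0 : 0 ≤ η := norm_nonneg _
    rcases le_or_gt η ((2 : ℝ) ^ u)⁻¹ with hle | hgt
    · exact hle.trans (le_add_of_nonneg_left (by positivity))
    have hηpos : 0 < η := lt_trans (by positivity) hgt
    obtain ⟨q, hq1, hq, z, hz⟩ := hW β (K * u - i) hηpos
    have hAη : A / η ^ e ≤ A * (2 : ℝ) ^ (e * u) := by
      rw [div_eq_mul_inv, ← inv_pow, mul_comm e u, pow_mul]
      refine mul_le_mul_of_nonneg_left (pow_le_pow_left₀ (by positivity) ?_ e) (by linarith)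
      rw [inv_le_comm₀ hηpos (by positivity)]
      exact hgt.le
    have h2L : ∀ x : ℝ, 0 ≤ x → x ≤ A * (c * B + 1) → x < (2 : ℝ) ^ (L * u) / 2 := by
      intro x _ hx
      have : (2 : ℝ) ^ L ≤ 2 ^ (L * u) := pow_le_pow_right₀ one_le_two (Nat.le_mul_of_pos_right L hu)
      linarith
    have hm : e * u + L * u ≤ k * (K * u - i) := by
      have h1 : (e + L + 1) * u ≤ K * u := Nat.mul_le_mul_right u (by omega)
      have h2 : K * u - i ≤ k * (K * u - i) := Nat.le_mul_of_pos_left _ hk1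
      rw [add_mul, add_mul, one_mul] at h1
      omega
    have hmz : A / η ^ e / ((2 : ℝ) ^ (K * u - i)) ^ k < 1 / 2 := by
      rw [← pow_mul, mul_comm _ k, div_lt_iff₀ (by positivity)]
      refine hAη.trans_lt ?_
      have h1 : A * (2 : ℝ) ^ (e * u) < (2 : ℝ) ^ (L * u) / 2 * 2 ^ (e * u) :=
        mul_lt_mul_of_pos_right (h2L A (by linarith) (le_mul_of_one_le_right (by linarith)
          (le_add_of_nonneg_left (by positivity)))) (by positivity)
      have h2 : (2 : ℝ) ^ (e * u + L * u) ≤ 2 ^ (k * (K * u - i)) := pow_le_pow_right₀ one_le_two hm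
      rw [pow_add] at h2
      linarith
    have hbig : |(q : ℝ) * (β * c)| < 1 / 2 := by
      rw [abs_mul, abs_mul, Nat.abs_cast, abs_of_nonneg (by linarith : (0 : ℝ) ≤ c)]
      have h1 : (q : ℝ) * (|β| * c) * (2 : ℝ) ^ (k * (K * u)) <
          1 / 2 * (2 : ℝ) ^ (k * (K * u)) := by
        calc (q : ℝ) * (|β| * c) * (2 : ℝ) ^ (k * (K * u))
            = (q : ℝ) * c * (|β| * (2 : ℝ) ^ (k * (K * u))) := by ring
          _ ≤ A * (2 : ℝ) ^ (e * u) * c * (B * (2 : ℝ) ^ (E * u)) :=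
              mul_le_mul (mul_le_mul_of_nonneg_right (hq.trans hAη) (by linarith)) hβ
                (by positivity) (by positivity)
          _ = A * (c * B) * (2 : ℝ) ^ (e * u + E * u) := by rw [pow_add]; ring
          _ < (2 : ℝ) ^ (L * u) / 2 * 2 ^ (e * u + E * u) :=
              mul_lt_mul_of_pos_right (h2L _ (by positivity)
                (mul_le_mul_of_nonneg_left (by linarith) (by linarith))) (by positivity)
          _ = 1 / 2 * (2 : ℝ) ^ (L * u + (e * u + E * u)) := by rw [pow_add]; ring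
          _ ≤ 1 / 2 * (2 : ℝ) ^ (k * (K * u)) := by
              refine mul_le_mul_of_nonneg_left (pow_le_pow_right₀ one_le_two ?_) (by norm_num)
              have h2 : (E + e + L) * u ≤ K * u := Nat.mul_le_mul_right u (by omega)
              have h3 : K * u ≤ k * (K * u) := Nat.le_mul_of_pos_left _ hk1
              rw [add_mul, add_mul] at h2
              omega
      exact lt_of_mul_lt_mul_right h1 (by positivity)
    have hz0 : z = 0 := by
      have h1 : |(z : ℝ)| < 1 := by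
        have h2 := abs_sub_abs_le_abs_sub (z : ℝ) ((q : ℝ) * (β * c))
        rw [abs_sub_comm] at h2
        linarith [hz.trans_lt hmz]
      have h3 : |z| < 1 := by exact_mod_cast h1
      exact Int.abs_lt_one_iff.1 h3
    rw [hz0, Int.cast_zero, sub_zero, abs_mul, abs_mul, Nat.abs_cast,
      abs_of_nonneg (by linarith : (0 : ℝ) ≤ c)] at hz
    refine le_trans ?_ (le_add_of_nonneg_right (by positivity))
    have h1 : η ^ e ≤ A / t i := by
      rw [le_div_iff₀ hti]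
      rw [le_div_iff₀ (by positivity), ← pow_mul, mul_comm _ k, le_div_iff₀ (pow_pos hηpos e)] at hz
      refine le_trans ?_ hz
      rw [ht]
      calc η ^ e * (|β| * (2 : ℝ) ^ (k * (K * u - i)))
          = 1 * (|β| * 1) * (2 : ℝ) ^ (k * (K * u - i)) * η ^ e := by ring
        _ ≤ (q : ℝ) * (|β| * c) * (2 : ℝ) ^ (k * (K * u - i)) * η ^ e := by
            gcongr
            exact_mod_cast hq1
    calc η = (η ^ e) ^ ((e : ℝ)⁻¹) := (Real.pow_rpow_inv_natCast hη0 (by omega)).symm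
      _ ≤ _ := Real.rpow_le_rpow (by positivity) h1 he'.le
  -- the first small scale
  have hsmall : ∀ i, i ≤ u → t i ≤ c0 → 1 / 2 ≤ (phi h β (K * u - i)).re := by
    intro i _ hti
    refine half_le_re_phi h β _ ?_
    rw [hk, ← hH]
    calc 2 * Real.pi * H * 2 ^ k * (|β| * 2 ^ (k * (K * u - i)))
        ≤ 2 * Real.pi * H * 2 ^ k * c0 := mul_le_mul_of_nonneg_left hti (by positivity)
      _ = 1 / 2 := by rw [hc0]; field_simp; ring
  classical
  have hex : ∃ i, u < i ∨ t i ≤ c0 := ⟨u + 1, Or.inl (by omega)⟩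
  set J := Nat.find hex with hJ
  have hJu : J ≤ u + 1 := Nat.find_min' hex (Or.inl (by omega))
  have hlarge : ∀ i, i < J → c0 < t i := fun i hi =>
    not_le.1 fun hle => Nat.find_min hex hi (Or.inr hle)
  have hshift : ∀ i j, i + j ≤ u → t i = t (i + j) * ((2 : ℝ) ^ k) ^ j := by
    intro i j hij
    simp only [ht]
    rw [mul_assoc, ← pow_mul, ← pow_add]
    congr 2
    have h1 : u ≤ K * u := Nat.le_mul_of_pos_left u (by omega)
    rw [← Nat.mul_add]
    congr 1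
    omega
  have hdown : ∀ i, J ≤ i → i ≤ u → 1 / 2 ≤ (phi h β (K * u - i)).re := by
    intro i hi hiu
    refine hsmall i hiu ?_
    rcases Nat.find_spec hex with h1 | h1
    · omega
    · refine le_trans ?_ h1
      have h2 := hshift J (i - J) (by omega)
      rw [Nat.add_sub_cancel' hi] at h2
      rw [← hJ, h2]
      exact le_mul_of_one_le_right (by positivity) (one_le_pow₀ (one_le_pow₀ one_le_two))
  have hup : ∀ i, i < J →
      -(M * σ ^ (J - 1 - i) + ((2 : ℝ) ^ u)⁻¹) ≤ (phi h β (K * u - i)).re := by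
    intro i hi
    have hti : 0 < t i := hc0pos.trans (hlarge i hi)
    refine le_trans (neg_le_neg ((hphi i (by omega) hti).trans (add_le_add ?_ le_rfl)))
      (neg_le_of_abs_le (Complex.abs_re_le_norm _))
    have h1 : c0 * ((2 : ℝ) ^ k) ^ (J - 1 - i) ≤ t i := by
      rw [hshift i (J - 1 - i) (by omega)]
      refine mul_le_mul_of_nonneg_right ?_ (by positivity)
      exact (hlarge _ (by omega)).le
    calc (A / t i) ^ ((e : ℝ)⁻¹)
        ≤ (A / c0 * (((2 : ℝ) ^ k)⁻¹) ^ (J - 1 - i)) ^ ((e : ℝ)⁻¹) := by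
          refine Real.rpow_le_rpow (by positivity) ?_ he'.le
          rw [inv_pow, ← div_eq_mul_inv, div_div]
          exact div_le_div_of_nonneg_left (by linarith) (by positivity) h1
      _ = M * σ ^ (J - 1 - i) := by
          rw [Real.mul_rpow (by positivity) (by positivity), hM, hσ,
            Real.rpow_pow_comm (by positivity)]
  have hmix := mix_lower hσ0.le hσr hr1.le hMr (by positivity) hJu hup hdown
  rw [arch]
  simp only [hrδ]
  refine le_trans ?_ hmix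
  rw [neg_le_neg_iff]
  have h1 : r ^ (u + 1) ≤ (2 : ℝ) ^ (-(min δ 1 * u)) := by
    calc r ^ (u + 1) ≤ r ^ u := pow_le_pow_of_le_one hr0.le hr1.le (by omega)
      _ = (2 : ℝ) ^ (-δ * u) := by
          rw [← hrδ, ← Real.rpow_natCast, ← Real.rpow_mul (by norm_num)]
      _ ≤ _ := Real.rpow_le_rpow_of_exponent_le one_le_two (by
          rw [neg_mul, neg_le_neg_iff]
          exact mul_le_mul_of_nonneg_right (min_le_left _ _) (Nat.cast_nonneg u))
  have h2 : ((2 : ℝ) ^ u)⁻¹ ≤ (2 : ℝ) ^ (-(min δ 1 * u)) := by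
    rw [← Real.rpow_natCast, ← Real.rpow_neg (by norm_num)]
    exact Real.rpow_le_rpow_of_exponent_le one_le_two
      (neg_le_neg (mul_le_of_le_one_left (Nat.cast_nonneg u) (min_le_right _ _)))
  linarith [show (0 : ℝ) ≤ r ^ (u + 1) by positivity]

end

end Vale.Agent.P042.Odd
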