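import Vale.Agent.P042.Upper.Basic

/-!
The linear programming bound: weights on forbidden differences with almost nonnegative transform
bound the size of a set avoiding them.
-/

open Finset

namespace Vale.Agent.P042.Odd

open Vale.Agent.P042.Upper

noncomputable section

theorem sum_ee_eq {M : ℕ} (hM : M ≠ 0) (n : ℤ) :
    ∑ j ∈ range M, ee ((j : ℝ) * n / M) = if (M : ℤ) ∣ n then (M : ℂ) else 0 := by
  have hMR : (M : ℝ) ≠ 0 := Nat.cast_ne_zero.2 hM
  set z := ee ((n : ℝ) / M) with hz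
  have hpow : ∀ j : ℕ, ee ((j : ℝ) * n / M) = z ^ j := by
    intro j
    induction j with
    | zero => simp [ee_zero]
    | succ j ih =>
      rw [pow_succ, ← ih, hz, ← ee_add]
      congr 1
      push_cast
      ring
  simp only [hpow]
  split_ifs with hd
  · obtain ⟨c, rfl⟩ := hd
    rw [hz, show (((M : ℤ) * c : ℤ) : ℝ) / M = (c : ℝ) by push_cast; field_simp, ee_int]
    simp
  · have hz1 : z ≠ 1 := by
      intro h1
      rw [hz, ee, Complex.exp_eq_one_iff] at h1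
      obtain ⟨t, ht⟩ := h1
      have h2 : (n : ℝ) / M = t := by
        have h3 : (((n : ℝ) / M : ℝ) : ℂ) = ((t : ℝ) : ℂ) := by
          have h4 : (2 : ℂ) * Real.pi * Complex.I ≠ 0 := by simp [Real.pi_ne_zero]
          have h5 : (2 : ℂ) * Real.pi * Complex.I * (((n : ℝ) / M : ℝ) : ℂ) =
              (2 : ℂ) * Real.pi * Complex.I * ((t : ℝ) : ℂ) := by
            push_cast at ht ⊢
            linear_combination ht
          exact mul_left_cancel₀ h4 h5
        exact_mod_cast h3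
      rw [div_eq_iff hMR] at h2
      exact hd ⟨t, by rw [mul_comm]; exact_mod_cast h2⟩
    rw [geom_sum_eq hz1, ← hpow M,
      show (M : ℝ) * n / M = (n : ℝ) by field_simp, ee_int, sub_self, zero_div]

/-- The Fourier transform of a set of naturals at `j / M`. -/
def four (A : Finset ℕ) (M j : ℕ) : ℂ := ∑ a ∈ A, ee ((j : ℝ) * (a : ℤ) / M)

theorem norm_sq_four (A : Finset ℕ) (M j : ℕ) :
    (((‖four A M j‖ ^ 2 : ℝ)) : ℂ) =
      ∑ a ∈ A, ∑ b ∈ A, ee ((j : ℝ) * ((a : ℤ) - b : ℤ) / M) := by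
  rw [← Complex.normSq_eq_norm_sq, ← Complex.mul_conj, four, map_sum, sum_mul_sum]
  refine sum_congr rfl fun a _ => sum_congr rfl fun b _ => ?_
  rw [← ee_neg, ← ee_add]
  congr 1
  push_cast
  ring

/-- The transform of a difference not occurring in `A - A` is orthogonal to the spectrum. -/
theorem orthogonal {A : Finset ℕ} {N : ℕ} (hA : A ⊆ Icc 1 N) {c : ℤ} (hc : |c| ≤ N)
    (hav : ∀ a ∈ A, ∀ b ∈ A, (a : ℤ) - b ≠ c) :
    ∑ j ∈ range (2 * N), ‖four A (2 * N) j‖ ^ 2 *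
      (ee ((j : ℝ) * c / ((2 * N : ℕ) : ℝ))).re = 0 := by
  rcases Nat.eq_zero_or_pos N with rfl | hN
  · simp
  have h0 : ∑ j ∈ range (2 * N), (((‖four A (2 * N) j‖ ^ 2 : ℝ)) : ℂ) *
      ee ((j : ℝ) * c / ((2 * N : ℕ) : ℝ)) = 0 := by
    simp only [norm_sq_four, sum_mul]
    rw [sum_comm]
    refine sum_eq_zero fun a ha => ?_
    rw [sum_comm]
    refine sum_eq_zero fun b hb => ?_
    have hne : ¬ ((2 * N : ℕ) : ℤ) ∣ (a : ℤ) - b + c := by
      intro hd
      have ha' := mem_Icc.1 (hA ha)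
      have hb' := mem_Icc.1 (hA hb)
      obtain ⟨hc1, hc2⟩ := abs_le.1 hc
      have h2 : (a : ℤ) - b + c = 0 := Int.eq_zero_of_abs_lt_dvd hd
        (by rw [abs_lt]; push_cast; omega)
      exact hav b hb a ha (by linarith)
    have h3 := sum_ee_eq (M := 2 * N) (by omega) ((a : ℤ) - b + c)
    rw [if_neg hne] at h3
    rw [← h3]
    refine sum_congr rfl fun j _ => ?_
    rw [← ee_add]
    congr 1
    push_cast
    ring
  have := congrArg Complex.re h0
  simpa only [Complex.re_sum, Complex.re_ofReal_mul, Complex.zero_re] using this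

theorem parseval {A : Finset ℕ} {N : ℕ} (hA : A ⊆ Icc 1 N) :
    ∑ j ∈ range (2 * N), ‖four A (2 * N) j‖ ^ 2 = (2 * N : ℕ) * (A.card : ℝ) := by
  rcases Nat.eq_zero_or_pos N with rfl | hN
  · simp
  have h0 : ∑ j ∈ range (2 * N), (((‖four A (2 * N) j‖ ^ 2 : ℝ)) : ℂ) =
      ((2 * N : ℕ) : ℂ) * (A.card : ℂ) := by
    simp only [norm_sq_four]
    rw [sum_comm, sum_congr rfl fun a (_ : a ∈ A) => sum_comm]
    rw [show ((2 * N : ℕ) : ℂ) * (A.card : ℂ) = ∑ _a ∈ A, ((2 * N : ℕ) : ℂ) by simp [mul_comm]]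
    refine sum_congr rfl fun a ha => ?_
    rw [sum_congr rfl fun b (_ : b ∈ A) => sum_ee_eq (M := 2 * N) (by omega) ((a : ℤ) - b)]
    rw [sum_eq_single_of_mem a ha]
    · simp
    · intro b hb hne
      rw [if_neg]
      intro hd
      have ha' := mem_Icc.1 (hA ha)
      have hb' := mem_Icc.1 (hA hb)
      exact hne (by
        have h2 : (a : ℤ) - b = 0 := Int.eq_zero_of_abs_lt_dvd hd
          (by rw [abs_lt]; push_cast; omega)
        omega)
  exact_mod_cast h0

/-- The linear programming bound. -/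
theorem lp_bound {ι : Type*} (s : Finset ι) (w : ι → ℝ) (c : ι → ℤ) {A : Finset ℕ} {N : ℕ}
    (hA : A ⊆ Icc 1 N) (hc : ∀ i ∈ s, |c i| ≤ N)
    (hav : ∀ i ∈ s, ∀ a ∈ A, ∀ b ∈ A, (a : ℤ) - b ≠ c i) {ε : ℝ} (hε : 0 ≤ ε)
    (hpos : ∀ θ : ℝ, -ε ≤ ∑ i ∈ s, w i * (ee (θ * c i)).re) :
    (∑ i ∈ s, w i) * (A.card : ℝ) ≤ 2 * ε * N := by
  rcases A.eq_empty_or_nonempty with rfl | hne
  · simp; positivity
  have hN : 0 < N := by
    obtain ⟨a, ha⟩ := hne
    have := mem_Icc.1 (hA ha)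
    omega
  set f : ℕ → ℝ := fun j => ∑ i ∈ s, w i * (ee ((j : ℝ) * c i / ((2 * N : ℕ) : ℝ))).re with hf
  set P : ℕ → ℝ := fun j => ‖four A (2 * N) j‖ ^ 2 with hP
  have hzero : ∑ j ∈ range (2 * N), P j * f j = 0 := by
    simp only [hf, mul_sum]
    rw [sum_comm]
    refine sum_eq_zero fun i hi => ?_
    calc ∑ j ∈ range (2 * N), P j * (w i * (ee ((j : ℝ) * c i / ((2 * N : ℕ) : ℝ))).re)
        = w i * ∑ j ∈ range (2 * N), P j * (ee ((j : ℝ) * c i / ((2 * N : ℕ) : ℝ))).re := by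
          rw [mul_sum]; exact sum_congr rfl fun j _ => by ring
      _ = 0 := by rw [hP, orthogonal hA (hc i hi) (hav i hi), mul_zero]
  have hlow : ∀ j, -ε ≤ f j := fun j => by
    refine (hpos ((j : ℝ) / ((2 * N : ℕ) : ℝ))).trans (le_of_eq ?_)
    simp only [hf]
    exact sum_congr rfl fun i _ => by rw [div_mul_eq_mul_div]
  have hpar : ∑ j ∈ range (2 * N), P j = (2 * N : ℕ) * (A.card : ℝ) := parseval hA
  have h2 : P 0 * (f 0 + ε) ≤ ∑ j ∈ range (2 * N), P j * (f j + ε) :=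
    single_le_sum (f := fun j => P j * (f j + ε))
      (fun j _ => mul_nonneg (by positivity) (by linarith [hlow j])) (mem_range.2 (by omega))
  have hP0 : P 0 = (A.card : ℝ) ^ 2 := by simp [hP, four, ee_zero]
  have hf0 : f 0 = ∑ i ∈ s, w i := by simp [hf, ee_zero]
  simp only [mul_add, sum_add_distrib, hzero, ← sum_mul, hpar, hP0, hf0, zero_add] at h2
  push_cast at h2
  have hA0 : (0 : ℝ) < A.card := by exact_mod_cast Finset.card_pos.2 hne
  have h3 : (A.card : ℝ) * ((∑ i ∈ s, w i) * A.card) ≤ (A.card : ℝ) * (2 * ε * N) := by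
    nlinarith [mul_nonneg hε (sq_nonneg (A.card : ℝ))]
  exact le_of_mul_le_mul_left h3 hA0

end

end Vale.Agent.P042.Odd
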