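import Vale.Agent.P042.Odd.Arith
import Vale.Agent.P042.Odd.Arch
import Vale.Agent.P042.Odd.Approx
import Vale.Agent.P042.Odd.Linear

/-!
A power saving for sets without differences in the values of an odd polynomial.
-/

open Finset Polynomial ArithmeticFunction

namespace Vale.Agent.P042.Odd

open Vale.Agent.P042.Upper

noncomputable section

theorem sum_moebius_div (d : ℕ) (hd : 1 ≤ d) :
    ∑ e ∈ d.divisors, (moebius (d / e) : ℝ) = if d = 1 then 1 else 0 := by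
  rw [Nat.sum_div_divisors d (fun e => (moebius e : ℝ))]
  have h1 := congrArg (fun f : ArithmeticFunction ℤ => f d) moebius_mul_coe_zeta
  simp only [coe_mul_zeta_apply, one_apply] at h1
  have : ((∑ e ∈ d.divisors, moebius e : ℤ) : ℝ) = ((if d = 1 then 1 else 0 : ℤ) : ℝ) := by
    rw [h1]
  push_cast at this
  exact this

/-- The coefficient of the block `(d, e)`. -/
def coef (δ : ℝ) (d e : ℕ) : ℝ := (d : ℝ) ^ (-δ) * (moebius (d / e) : ℝ)

theorem abs_coef_le {δ : ℝ} (hδ : 0 ≤ δ) {d e : ℕ} (hd : 1 ≤ d) : |coef δ d e| ≤ 1 := by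
  rw [coef, abs_mul]
  refine mul_le_one₀ ?_ (abs_nonneg _) (by exact_mod_cast abs_moebius_le_one)
  rw [abs_of_nonneg (Real.rpow_nonneg (Nat.cast_nonneg _) _)]
  exact Real.rpow_le_one_of_one_le_of_nonpos (by exact_mod_cast hd) (by linarith)

/-- The transform of the weights. -/
def trans (h : ℤ[X]) (δ δ' : ℝ) (K u : ℕ) (θ : ℝ) : ℝ :=
  ∑ i ∈ range (u + 1), (1 - (2 : ℝ) ^ (-δ')) * ((2 : ℝ) ^ (-δ')) ^ i *
    ∑ d ∈ Icc 1 (2 ^ u), ∑ e ∈ d.divisors, coef δ d e * (blockAvg h θ (K * u - i) e).re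

theorem scale_sum_le {δ' : ℝ} (hδ' : 0 ≤ δ') (u : ℕ) :
    ∑ i ∈ range (u + 1), (1 - (2 : ℝ) ^ (-δ')) * ((2 : ℝ) ^ (-δ')) ^ i ≤ 1 := by
  rw [← mul_sum, mul_neg_geom_sum]
  have : (0 : ℝ) ≤ ((2 : ℝ) ^ (-δ')) ^ (u + 1) := by positivity
  linarith

theorem scale_nonneg {δ' : ℝ} (hδ' : 0 ≤ δ') (i : ℕ) :
    0 ≤ (1 - (2 : ℝ) ^ (-δ')) * ((2 : ℝ) ^ (-δ')) ^ i :=
  mul_nonneg (sub_nonneg.2 (Real.rpow_le_one_of_one_le_of_nonpos one_le_two (by linarith)))
    (by positivity)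

theorem abs_blocks_le {δ : ℝ} (hδ : 0 ≤ δ) (u : ℕ) {η : ℝ} (f : ℕ → ℝ)
    (hf : ∀ e ∈ Icc 1 (2 ^ u), |f e| ≤ η) (hη : 0 ≤ η) :
    |∑ d ∈ Icc 1 (2 ^ u), ∑ e ∈ d.divisors, coef δ d e * f e| ≤ (4 : ℝ) ^ u * η := by
  refine (abs_sum_le_sum_abs _ _).trans ((sum_le_card_nsmul _ _ ((2 : ℝ) ^ u * η) fun d hd => ?_).trans
    (le_of_eq ?_))
  · obtain ⟨hd1, hd2⟩ := mem_Icc.1 hd
    refine (abs_sum_le_sum_abs _ _).trans ((sum_le_card_nsmul _ _ η fun e he => ?_).trans ?_)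
    · rw [abs_mul]
      refine (mul_le_mul (abs_coef_le hδ hd1) (hf e (mem_Icc.2 ⟨Nat.pos_of_mem_divisors he,
        (Nat.divisor_le he).trans hd2⟩)) (abs_nonneg _) zero_le_one).trans (one_mul η).le
    · rw [nsmul_eq_mul]
      refine mul_le_mul_of_nonneg_right ?_ hη
      exact_mod_cast (Nat.card_divisors_le_self d).trans hd2
  · rw [Nat.card_Icc, Nat.add_sub_cancel, nsmul_eq_mul,
      show (4 : ℝ) ^ u = 2 ^ u * 2 ^ u by rw [← mul_pow]; norm_num]
    push_cast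
    ring

theorem exists_threshold {g : ℤ[X]} (hg : 1 ≤ g.natDegree) (hlead : 0 < g.leadingCoeff) :
    ∃ n₀ : ℕ, ∀ n : ℕ, n₀ ≤ n → 1 ≤ g.eval (n : ℤ) := by
  have h := Polynomial.tendsto_atTop_of_leadingCoeff_nonneg (g.map (Int.castRingHom ℝ))
    (by
      rw [degree_map_eq_of_injective Int.cast_injective]
      exact natDegree_pos_iff_degree_pos.1 (by omega))
    (by
      rw [leadingCoeff_map_of_injective Int.cast_injective]
      simpa using (show (0 : ℝ) ≤ (g.leadingCoeff : ℝ) by exact_mod_cast hlead.le))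
  obtain ⟨x₀, hx₀⟩ := Filter.eventually_atTop.1 (h.eventually_ge_atTop 1)
  refine ⟨⌈max x₀ 0⌉₊, fun n hn => ?_⟩
  have h1 := hx₀ (n : ℝ) ((le_max_left _ _).trans ((Nat.le_ceil _).trans (Nat.cast_le.2 hn)))
  rw [← Int.cast_natCast] at h1
  rw [eval_intCast_map] at h1
  simp only [eq_intCast, Int.cast_id] at h1
  exact_mod_cast h1

set_option maxHeartbeats 1000000 in
/-- The transform is bounded below by a power of `2 ^ u`. -/
theorem trans_lower (h : ℤ[X]) (hodd : ∀ x, h.eval (-x) = -h.eval x) {k : ℕ}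
    (hk : h.natDegree = k) (hk1 : 1 ≤ k) (hlead : 0 < h.leadingCoeff) :
    ∃ δ δ' γ C : ℝ, ∃ K : ℕ, 0 < δ ∧ 0 < δ' ∧ 0 < γ ∧ 0 ≤ C ∧ 3 ≤ K ∧
      ∀ u : ℕ, 1 ≤ u → ∀ θ : ℝ, -(C * (2 : ℝ) ^ (-(γ * u))) ≤ trans h δ δ' K u θ := by
  obtain ⟨δ, κ, CF, hδ, hκ, hCF, hF⟩ := arith_main h hodd (by rintro rfl; simp at hlead)
  obtain ⟨δ', γA, hδ', hγA, hA⟩ := arch_main h hk hk1 hlead
  obtain ⟨A, w, hA1, hW⟩ := minor_arcs h hk hk1 hlead
  obtain ⟨CM, hCM, hM⟩ := major_approx h (by omega)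
  set E := 4 * w + 2 * k with hE
  set B : ℝ := A * 2 ^ k with hB
  have hB0 : 0 ≤ B := by positivity
  obtain ⟨K₀, CA, hCA, hArch⟩ := hA E B hB0
  set K := max K₀ (2 * E + 9) with hK
  set γ := min (min γA κ) 2 with hγ
  have hγ0 : 0 < γ := lt_min (lt_min hγA hκ) two_pos
  set Cerr : ℝ := CM * B * (1 + B) with hCerr
  refine ⟨δ, δ', γ, 1 + Cerr + CF * CA + CF, K, hδ, hδ', hγ0, by positivity, by omega,
    fun u hu θ => ?_⟩
  have hpow2 : ∀ x : ℕ, (2 : ℝ) ^ x = (2 : ℝ) ^ (x : ℝ) := fun x => (Real.rpow_natCast 2 x).symm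
  have hle : ∀ x : ℝ, γ ≤ x → (2 : ℝ) ^ (-(x * u)) ≤ (2 : ℝ) ^ (-(γ * u)) := fun x hx => by
    refine Real.rpow_le_rpow_of_exponent_le one_le_two ?_
    have : (0 : ℝ) ≤ u := Nat.cast_nonneg u
    nlinarith
  have hdec : ((2 : ℝ) ^ (2 * u))⁻¹ ≤ (2 : ℝ) ^ (-(γ * u)) := by
    refine le_trans (le_of_eq ?_) (hle 2 (min_le_right _ _))
    rw [hpow2, Real.rpow_neg two_pos.le]
    push_cast
    ring_nf
  set η : ℝ := ((2 : ℝ) ^ (4 * u))⁻¹ with hη
  have hη0 : 0 < η := by positivity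
  have hη1 : η ≤ 1 := inv_le_one_of_one_le₀ (one_le_pow₀ one_le_two)
  have hdecay4 : (4 : ℝ) ^ u * η = ((2 : ℝ) ^ (2 * u))⁻¹ := by
    rw [hη, show (4 : ℝ) = 2 ^ 2 by norm_num, ← pow_mul, show 4 * u = 2 * u + 2 * u by ring, pow_add]
    field_simp
  have hpos : 0 ≤ (2 : ℝ) ^ (-(γ * u)) := by positivity
  have hCerr0 : 0 ≤ Cerr := by positivity
  have hC1 : 0 ≤ CF * CA + CF := by positivity
  by_cases hsmall : ∀ i ∈ range (u + 1), ∀ e ∈ Icc 1 (2 ^ u),
      ‖blockAvg h θ (K * u - i) e‖ ≤ η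
  · have habs : |trans h δ δ' K u θ| ≤ (4 : ℝ) ^ u * η := by
      refine (abs_sum_le_sum_abs _ _).trans ((sum_le_sum (g := fun i =>
        (1 - (2 : ℝ) ^ (-δ')) * ((2 : ℝ) ^ (-δ')) ^ i * ((4 : ℝ) ^ u * η)) fun i hi => ?_).trans ?_)
      swap
      · rw [← sum_mul]
        exact mul_le_of_le_one_left (by positivity) (scale_sum_le hδ'.le u)
      · rw [abs_mul, abs_of_nonneg (scale_nonneg hδ'.le i)]
        refine mul_le_mul_of_nonneg_left ?_ (scale_nonneg hδ'.le i)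
        exact abs_blocks_le hδ.le u _
          (fun e he => (Complex.abs_re_le_norm _).trans (hsmall i hi e he)) hη0.le
    rw [hdecay4] at habs
    nlinarith [(abs_le.1 (habs.trans hdec)).1]
  push Not at hsmall
  obtain ⟨i₀, hi₀, e₀, he₀, hbig⟩ := hsmall
  have hi₀u : i₀ ≤ u := Nat.lt_succ_iff.1 (mem_range.1 hi₀)
  obtain ⟨he₀1, he₀2⟩ := mem_Icc.1 he₀
  have hblock : ∀ i ≤ u, ∀ e ≤ 2 ^ u, 2 * e ≤ 2 ^ (K * u - i) := by
    intro i hi e he
    have h1 : 3 * u ≤ K * u := Nat.mul_le_mul_right _ (by omega)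
    calc 2 * e ≤ 2 ^ (u + 1) := by rw [pow_succ]; linarith
      _ ≤ _ := Nat.pow_le_pow_right two_pos (by omega)
  obtain ⟨a, q, β, hq, ha, hθ, hqA, hβA⟩ :=
    hW η hη0 hη1 e₀ (K * u - i₀) he₀1 (hblock i₀ hi₀u e₀ he₀2) θ hbig.le
  have hAe : A * (e₀ : ℝ) ^ k / η ^ w ≤ A * (2 : ℝ) ^ ((4 * w + k) * u) := by
    rw [hη, inv_pow, div_inv_eq_mul, mul_assoc, ← pow_mul,
      show (4 * w + k) * u = u * k + 4 * u * w by ring, pow_add (2 : ℝ), pow_mul (2 : ℝ) u k]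
    gcongr
    exact_mod_cast he₀2
  have hqB : (q : ℝ) ≤ B * (2 : ℝ) ^ (E * u) := by
    refine hqA.trans (hAe.trans ?_)
    rw [hB, hE]
    refine mul_le_mul (le_mul_of_one_le_right (by positivity) (one_le_pow₀ one_le_two))
      (pow_le_pow_right₀ one_le_two (Nat.mul_le_mul_right _ (by omega))) (by positivity)
      (by positivity)
  have hKu : u ≤ K * u := Nat.le_mul_of_pos_left u (by omega)
  have hβB : |β| * (2 : ℝ) ^ (k * (K * u)) ≤ B * (2 : ℝ) ^ (E * u) := by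
    have e1 : k * (K * u) = (K * u - i₀) * k + i₀ * k := by
      rw [← add_mul, Nat.sub_add_cancel (by omega), mul_comm]
    rw [e1, pow_add, ← mul_assoc]
    refine (mul_le_mul (hβA.trans hAe) (pow_le_pow_right₀ one_le_two (Nat.mul_le_mul_right k hi₀u))
      (by positivity) (by positivity)).trans ?_
    rw [hB, hE, mul_assoc, ← pow_add]
    refine mul_le_mul (le_mul_of_one_le_right (by positivity) (one_le_pow₀ one_le_two))
      (le_of_eq (congrArg _ (by ring))) (by positivity) (by positivity)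
  have happ : ∀ i ≤ u, ∀ e ∈ Icc 1 (2 ^ u),
      |(blockAvg h θ (K * u - i) e).re - R h a q e * (phi h β (K * u - i)).re| ≤ Cerr * η := by
    intro i hi e he
    obtain ⟨he1, he2⟩ := mem_Icc.1 he
    set m := K * u - i with hm
    have h1 := hM a q hq β e he1 m (hblock i hi e he2)
    rw [← hθ, gauss_dil_eq hodd a (by omega), hk] at h1
    have h2 := (Complex.abs_re_le_norm _).trans h1
    rw [Complex.sub_re, Complex.re_ofReal_mul] at h2
    refine h2.trans ?_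
    have hmk : |β| * (2 : ℝ) ^ (m * k) ≤ B * (2 : ℝ) ^ (E * u) := le_trans
      (mul_le_mul_of_nonneg_left (pow_le_pow_right₀ one_le_two (by
        rw [mul_comm k]; exact Nat.mul_le_mul_right k (by omega))) (abs_nonneg _)) hβB
    have hone : (1 : ℝ) ≤ (2 : ℝ) ^ (E * u) := one_le_pow₀ one_le_two
    have hup : CM * (q : ℝ) * e * (1 + |β| * (2 : ℝ) ^ (m * k)) ≤
        Cerr * (2 : ℝ) ^ (E * u + u + E * u) := by
      calc CM * (q : ℝ) * e * (1 + |β| * (2 : ℝ) ^ (m * k))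
          ≤ CM * (B * (2 : ℝ) ^ (E * u)) * (2 : ℝ) ^ u * ((1 + B) * (2 : ℝ) ^ (E * u)) := by
            gcongr
            · exact_mod_cast he2
            · rw [add_mul, one_mul]; exact add_le_add hone hmk
        _ = _ := by rw [hCerr, pow_add, pow_add]; ring
    have hm5 : E * u + u + E * u + 4 * u ≤ m := by
      have : (2 * E + 9) * u ≤ K * u := Nat.mul_le_mul_right _ (le_max_right _ _)
      rw [add_mul, mul_assoc] at this
      omega
    refine (div_le_div_of_nonneg_right hup (by positivity)).trans ?_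
    rw [hη, div_le_iff₀ (by positivity), mul_assoc Cerr]
    refine mul_le_mul_of_nonneg_left ?_ hCerr0
    rw [inv_mul_eq_div, le_div_iff₀ (by positivity), ← pow_add]
    exact pow_le_pow_right₀ one_le_two hm5
  have hmain : |trans h δ δ' K u θ - F h δ (2 ^ u) a q * arch h δ' β K u| ≤
      Cerr * ((2 : ℝ) ^ (2 * u))⁻¹ := by
    have e1 : F h δ (2 ^ u) a q * arch h δ' β K u =
        ∑ i ∈ range (u + 1), (1 - (2 : ℝ) ^ (-δ')) * ((2 : ℝ) ^ (-δ')) ^ i *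
          ∑ d ∈ Icc 1 (2 ^ u), ∑ e ∈ d.divisors,
            coef δ d e * (R h a q e * (phi h β (K * u - i)).re) := by
      rw [arch, mul_sum]
      refine sum_congr rfl fun i _ => ?_
      simp only [F, G, sum_mul, mul_sum, coef]
      exact sum_congr rfl fun d _ => sum_congr rfl fun e _ => by ring
    rw [trans, e1, ← sum_sub_distrib]
    refine (abs_sum_le_sum_abs _ _).trans ((sum_le_sum (g := fun i =>
      (1 - (2 : ℝ) ^ (-δ')) * ((2 : ℝ) ^ (-δ')) ^ i * ((4 : ℝ) ^ u * (Cerr * η)))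
        fun i hi => ?_).trans ?_)
    · rw [← mul_sub, abs_mul, abs_of_nonneg (scale_nonneg hδ'.le i)]
      refine mul_le_mul_of_nonneg_left ?_ (scale_nonneg hδ'.le i)
      simp only [← sum_sub_distrib, ← mul_sub]
      exact abs_blocks_le hδ.le u _ (happ i (Nat.lt_succ_iff.1 (mem_range.1 hi))) (by positivity)
    · rw [← sum_mul, show Cerr * ((2 : ℝ) ^ (2 * u))⁻¹ = (4 : ℝ) ^ u * (Cerr * η) by
        rw [← hdecay4]; ring]
      exact mul_le_of_le_one_left (by positivity) (scale_sum_le hδ'.le u)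
  have harch : -(CA * (2 : ℝ) ^ (-(γ * u))) ≤ arch h δ' β K u := by
    have h1 := hArch K u (le_max_left _ _) hu β hβB
    have h2 := mul_le_mul_of_nonneg_left (hle γA ((min_le_left _ _).trans (min_le_left _ _))) hCA
    linarith
  have harch1 : |arch h δ' β K u| ≤ 1 := by
    refine (abs_sum_le_sum_abs _ _).trans ((sum_le_sum fun i hi => ?_).trans (scale_sum_le hδ'.le u))
    rw [abs_mul, abs_of_nonneg (scale_nonneg hδ'.le i)]
    refine mul_le_of_le_one_right (scale_nonneg hδ'.le i) ((Complex.abs_re_le_norm _).trans ?_)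
    rw [phi, norm_div, norm_pow, Complex.norm_ofNat, div_le_one (by positivity)]
    refine (norm_sum_le _ _).trans ?_
    simp only [norm_ee, sum_const, Nat.card_Ioc, nsmul_eq_mul, mul_one]
    rw [pow_succ, show 2 ^ (K * u - i) * 2 - 2 ^ (K * u - i) = 2 ^ (K * u - i) by omega]
    push_cast
    exact le_rfl
  obtain ⟨hFC, hFpos, hFsmall⟩ := hF (2 ^ u) q (Nat.one_le_two_pow) hq a ha
  have hprod : -((CF * CA + CF) * (2 : ℝ) ^ (-(γ * u))) ≤
      F h δ (2 ^ u) a q * arch h δ' β K u := by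
    rcases le_or_gt q (2 ^ u) with hqD | hqD
    · have hF0 := hFpos hqD
      have hF1 := (abs_le.1 hFC).2
      have : 0 ≤ CA * (2 : ℝ) ^ (-(γ * u)) := by positivity
      nlinarith [mul_nonneg hF0 (sub_nonneg.2 harch), mul_nonneg (sub_nonneg.2 hF1) this,
        mul_nonneg hCF hpos]
    · have h2 := hFsmall hqD
      rw [show (((2 ^ u : ℕ) : ℝ)) ^ (-κ) = (2 : ℝ) ^ (-(κ * u)) by
        push_cast
        rw [← Real.rpow_natCast, ← Real.rpow_mul two_pos.le]; ring_nf] at h2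
      have h3 : |F h δ (2 ^ u) a q| ≤ CF * (2 : ℝ) ^ (-(γ * u)) := h2.trans
        (mul_le_mul_of_nonneg_left (hle κ ((min_le_left _ _).trans (min_le_right _ _))) hCF)
      have h4 := mul_le_mul h3 harch1 (abs_nonneg _) (by positivity)
      rw [← abs_mul, mul_one] at h4
      nlinarith [(abs_le.1 h4).1, mul_nonneg (mul_nonneg hCF hCA) hpos]
  have := (abs_le.1 hmain).1
  have := mul_le_mul_of_nonneg_left hdec hCerr0
  nlinarith

theorem blockAvg_zero (h : ℤ[X]) {m e : ℕ} (he : 1 ≤ e) (hem : 2 * e ≤ 2 ^ m) :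
    blockAvg h 0 m e = 1 := by
  have hM : 2 ≤ 2 ^ m / e := (Nat.le_div_iff_mul_le he).2 (by linarith)
  simp only [blockAvg, zero_mul, ee_zero, sum_const, card_range, nsmul_eq_mul, mul_one]
  exact div_self (Nat.cast_ne_zero.2 (by omega))

theorem trans_zero (h : ℤ[X]) (δ : ℝ) {δ' : ℝ} (hδ' : 0 ≤ δ') {K u : ℕ} (hK : 3 ≤ K) (hu : 1 ≤ u) :
    1 - (2 : ℝ) ^ (-δ') ≤ trans h δ δ' K u 0 := by
  have hinner : ∀ i ≤ u, ∑ d ∈ Icc 1 (2 ^ u), ∑ e ∈ d.divisors,
      coef δ d e * (blockAvg h 0 (K * u - i) e).re = 1 := by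
    intro i hi
    have hb : ∀ d ∈ Icc 1 (2 ^ u), ∑ e ∈ d.divisors, coef δ d e * (blockAvg h 0 (K * u - i) e).re =
        if d = 1 then 1 else 0 := by
      intro d hd
      obtain ⟨hd1, hd2⟩ := mem_Icc.1 hd
      have hr : ∀ e ∈ d.divisors, coef δ d e * (blockAvg h 0 (K * u - i) e).re =
          (d : ℝ) ^ (-δ) * (moebius (d / e) : ℝ) := by
        intro e he
        have h1 : 3 * u ≤ K * u := Nat.mul_le_mul_right _ hK
        have h2 : 2 ^ (u + 1) ≤ 2 ^ (K * u - i) := Nat.pow_le_pow_right two_pos (by omega)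
        have h3 := (Nat.divisor_le he).trans hd2
        rw [pow_succ] at h2
        rw [blockAvg_zero h (Nat.pos_of_mem_divisors he) (by omega), Complex.one_re, mul_one, coef]
      rw [sum_congr rfl hr, ← mul_sum, sum_moebius_div d hd1]
      split_ifs with h1
      · subst h1; simp
      · simp
    rw [sum_congr rfl hb, sum_ite_eq' (Icc 1 (2 ^ u)) 1 (fun _ => (1 : ℝ)), if_pos]
    exact mem_Icc.2 ⟨le_rfl, Nat.one_le_two_pow⟩
  rw [trans, sum_congr rfl fun i hi => by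
    rw [hinner i (Nat.lt_succ_iff.1 (mem_range.1 hi)), mul_one]]
  refine le_trans (le_of_eq (by simp)) (single_le_sum
    (f := fun i => (1 - (2 : ℝ) ^ (-δ')) * ((2 : ℝ) ^ (-δ')) ^ i)
    (fun i _ => scale_nonneg hδ' i) (mem_range.2 (by omega : 0 < u + 1)))

/-- The bound coming from the weights at level `u`. -/
theorem level_bound (h : ℤ[X]) {δ δ' : ℝ} {K u : ℕ} (hK : 3 ≤ K)
    {A : Finset ℕ} {N n₀ : ℕ} (hA : A ⊆ Icc 1 N) (hn₀ : n₀ ≤ 2 ^ u)
    (hpos : ∀ n : ℕ, n₀ ≤ n → 1 ≤ h.eval (n : ℤ))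
    (hval : ∀ n : ℕ, n ≤ 2 ^ (K * u + 2) → h.eval (n : ℤ) ≤ N)
    (hav : ∀ a ∈ A, ∀ b ∈ A, ∀ n : ℕ, n₀ ≤ n → (a : ℤ) - b ≠ h.eval (n : ℤ)) {ε : ℝ} (hε : 0 ≤ ε)
    (hlow : ∀ θ, -ε ≤ trans h δ δ' K u θ) :
    trans h δ δ' K u 0 * (A.card : ℝ) ≤ 2 * ε * N := by
  set s : Finset ((_ : ℕ) × (_ : ℕ) × (_ : ℕ) × ℕ) := (range (u + 1)).sigma fun i =>
    (Icc 1 (2 ^ u)).sigma fun d => d.divisors.sigma fun e => range (2 ^ (K * u - i) / e) with hs
  set wgt : ((_ : ℕ) × (_ : ℕ) × (_ : ℕ) × ℕ) → ℝ := fun x =>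
    (1 - (2 : ℝ) ^ (-δ')) * ((2 : ℝ) ^ (-δ')) ^ x.1 * coef δ x.2.1 x.2.2.1 /
      ((2 ^ (K * u - x.1) / x.2.2.1 : ℕ) : ℝ) with hwgt
  set val : ((_ : ℕ) × (_ : ℕ) × (_ : ℕ) × ℕ) → ℕ := fun x =>
    x.2.2.1 * (2 ^ (K * u - x.1) / x.2.2.1 + 1 + x.2.2.2) with hval'
  have hsum : ∀ θ : ℝ,
      ∑ x ∈ s, wgt x * (ee (θ * (h.eval ((val x : ℕ) : ℤ) : ℤ))).re = trans h δ δ' K u θ := by
    intro θ
    simp only [hs, sum_sigma, trans, blockAvg, Complex.div_natCast_re, Complex.re_sum, hwgt, hval',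
      mul_sum, sum_div]
    exact sum_congr rfl fun i _ => sum_congr rfl fun d _ => sum_congr rfl fun e _ =>
      sum_congr rfl fun x _ => by ring
  have hbound : ∀ x ∈ s, n₀ ≤ val x ∧ val x ≤ 2 ^ (K * u + 2) := by
    rintro ⟨i, d, e, x⟩ hx
    simp only [hs, mem_sigma, mem_range, mem_Icc] at hx
    obtain ⟨hi, ⟨hd1, hd2⟩, he, hxM⟩ := hx
    simp only [hval']
    have he1 : 1 ≤ e := Nat.pos_of_mem_divisors he
    have he2 : e ≤ 2 ^ u := (Nat.divisor_le he).trans hd2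
    have h3u : 3 * u ≤ K * u := Nat.mul_le_mul_right _ hK
    set M := 2 ^ (K * u - i) / e with hM
    have h1 : 2 ^ (K * u - i) < e * (M + 1) := Nat.lt_mul_div_succ _ he1
    have h2 : e * M ≤ 2 ^ (K * u - i) := Nat.mul_div_le _ _
    have h3 : 2 ^ u ≤ 2 ^ (K * u - i) := Nat.pow_le_pow_right two_pos (by omega)
    have h4 : 2 ^ (K * u - i) ≤ 2 ^ (K * u) := Nat.pow_le_pow_right two_pos (by omega)
    constructor
    · calc n₀ ≤ e * (M + 1) := by omega
        _ ≤ _ := Nat.mul_le_mul_left _ (by omega)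
    · calc e * (M + 1 + x) ≤ e * (2 * M) := Nat.mul_le_mul_left _ (by omega)
        _ ≤ _ := by rw [mul_left_comm, pow_add]; omega
  have hw : ∑ x ∈ s, wgt x = trans h δ δ' K u 0 := by
    rw [← hsum 0]
    exact sum_congr rfl fun x _ => by simp [ee_zero]
  rw [← hw]
  refine lp_bound s wgt (fun x => h.eval ((val x : ℕ) : ℤ)) hA (fun x hx => ?_)
    (fun x hx a ha b hb => hav a ha b hb _ (hbound x hx).1) hε fun θ => by rw [hsum]; exact hlow θ
  rw [abs_of_nonneg (le_trans zero_le_one (hpos _ (hbound x hx).1))]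
  exact hval _ (hbound x hx).2

/-- Power saving for odd polynomials. -/
theorem odd_saving (h : ℤ[X]) (hodd : ∀ x, h.eval (-x) = -h.eval x) (hk1 : 1 ≤ h.natDegree)
    (hlead : 0 < h.leadingCoeff) (n₁ : ℕ) :
    ∃ c C : ℝ, 0 < c ∧ ∀ (N : ℕ) (A : Finset ℕ), A ⊆ Icc 1 N →
      (∀ a ∈ A, ∀ b ∈ A, ∀ n : ℕ, n₁ ≤ n → h.eval (n : ℤ) ≠ 0 → (a : ℤ) - b ≠ h.eval (n : ℤ)) →
      (A.card : ℝ) ≤ C * (N : ℝ) ^ (1 - c) := by
  set k := h.natDegree with hk
  obtain ⟨δ, δ', γ, C, K, hδ, hδ', hγ, hC, hK, hlow⟩ := trans_lower h hodd hk.symm hk1 hlead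
  obtain ⟨n₂, hn₂⟩ := exists_threshold hk1 hlead
  set n₀ := max n₁ n₂ with hn₀
  set Hs : ℕ := ∑ i ∈ range (k + 1), (h.coeff i).natAbs with hHs
  set H : ℕ := (Hs + 1) * 4 ^ k with hH
  have hH0 : 0 < H := Nat.mul_pos (Nat.succ_pos _) (pow_pos (by norm_num) k)
  set L : ℕ := K * k with hL
  have hL0 : 0 < L := Nat.mul_pos (by omega) hk1
  set W : ℝ := 1 - (2 : ℝ) ^ (-δ') with hW
  have hW0 : 0 < W := sub_pos.2 (Real.rpow_lt_one_of_one_lt_of_neg one_lt_two (by linarith))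
  set c : ℝ := γ / L with hc
  have hc0 : 0 < c := div_pos hγ (by exact_mod_cast hL0)
  set N₀ : ℕ := H * 2 ^ (L * (n₀ + 1)) with hN₀
  set C₁ : ℝ := 2 * C / W * ((H : ℝ) * 2 ^ L) ^ c + (N₀ : ℝ) ^ c with hC₁
  refine ⟨c, C₁, hc0, fun N A hA hav => ?_⟩
  have hcard : (A.card : ℝ) ≤ N := by
    have := card_le_card hA
    simp at this
    exact_mod_cast this
  rcases Nat.eq_zero_or_pos N with rfl | hN
  · have h0 : (A.card : ℝ) = 0 := le_antisymm (by simpa using hcard) (Nat.cast_nonneg _)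
    rw [h0]; positivity
  have hNR : (0 : ℝ) < N := by exact_mod_cast hN
  have hsplit : (N : ℝ) ^ (1 - c) = N / (N : ℝ) ^ c := by rw [Real.rpow_sub hNR, Real.rpow_one]
  rcases lt_or_ge N N₀ with hlt | hge
  · refine hcard.trans ?_
    calc (N : ℝ) = (N : ℝ) ^ c * (N : ℝ) ^ (1 - c) := by
          rw [← Real.rpow_add hNR, add_sub_cancel, Real.rpow_one]
      _ ≤ C₁ * (N : ℝ) ^ (1 - c) := by
          refine mul_le_mul_of_nonneg_right ?_ (by positivity)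
          refine (Real.rpow_le_rpow hNR.le (Nat.cast_le.2 hlt.le) hc0.le).trans ?_
          exact le_add_of_nonneg_left (by positivity)
  set x := Nat.log 2 (N / H) with hx
  set u := x / L with hu
  have hNH : 2 ^ (L * (n₀ + 1)) ≤ N / H :=
    (Nat.le_div_iff_mul_le hH0).2 (by rw [mul_comm]; exact hge)
  have hx1 : L * (n₀ + 1) ≤ x := by
    rw [hx]; exact Nat.le_log_of_pow_le one_lt_two hNH
  have hu1 : n₀ + 1 ≤ u := (Nat.le_div_iff_mul_le hL0).2 (by rwa [mul_comm])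
  have hNH0 : N / H ≠ 0 := by have := Nat.one_le_two_pow (n := L * (n₀ + 1)); omega
  have hlow2 : H * 2 ^ (L * u) ≤ N := by
    have h1 : 2 ^ (L * u) ≤ N / H := (Nat.pow_le_pow_right two_pos (Nat.mul_div_le x L)).trans
      (Nat.pow_log_le_self 2 hNH0)
    calc H * 2 ^ (L * u) ≤ H * (N / H) := Nat.mul_le_mul_left _ h1
      _ ≤ N := Nat.mul_div_le _ _
  have hup : N < H * 2 ^ (L * u + L) := by
    have h1 : N / H < 2 ^ (x + 1) := Nat.lt_pow_succ_log_self one_lt_two _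
    have h2 : 2 ^ (x + 1) ≤ 2 ^ (L * u + L) := by
      refine Nat.pow_le_pow_right two_pos ?_
      have := Nat.lt_mul_div_succ x hL0
      rw [← hu, mul_add, mul_one] at this
      omega
    rw [mul_comm]
    exact (Nat.div_lt_iff_lt_mul hH0).1 (h1.trans_le h2)
  have hval : ∀ n : ℕ, n ≤ 2 ^ (K * u + 2) → h.eval (n : ℤ) ≤ N := by
    intro n hn
    have hP1 : 1 ≤ 2 ^ (K * u + 2) := Nat.one_le_two_pow
    have h2 : (h.eval (n : ℤ)).natAbs ≤ Hs * (2 ^ (K * u + 2)) ^ k := by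
      rw [eval_eq_sum_range, hHs, sum_mul, ← hk]
      refine (Int.natAbs_sum_le _ _).trans (sum_le_sum fun i hi => ?_)
      rw [Int.natAbs_mul, Int.natAbs_pow, Int.natAbs_natCast]
      exact Nat.mul_le_mul_left _ ((Nat.pow_le_pow_left hn i).trans
        (Nat.pow_le_pow_right hP1 (Nat.lt_succ_iff.1 (mem_range.1 hi))))
    have h3 : (h.eval (n : ℤ)).natAbs ≤ N := by
      refine h2.trans (le_trans ?_ hlow2)
      rw [pow_add, mul_pow, ← pow_mul, hH, hL, show K * u * k = K * k * u by ring,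
        show ((2 : ℕ) ^ 2) ^ k = 4 ^ k by norm_num]
      calc Hs * (2 ^ (K * k * u) * 4 ^ k) ≤ (Hs + 1) * (2 ^ (K * k * u) * 4 ^ k) :=
            Nat.mul_le_mul_right _ (Nat.le_succ _)
        _ = _ := by ring
    omega
  have hn₀u : n₀ ≤ 2 ^ u := le_of_lt (lt_of_lt_of_le (Nat.lt_of_succ_le hu1) (Nat.lt_two_pow_self).le)
  set ε : ℝ := C * (2 : ℝ) ^ (-(γ * u)) with hε
  have hε0 : 0 ≤ ε := by positivity
  have hb := level_bound h (δ := δ) (δ' := δ') (K := K) (u := u) hK hA hn₀u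
    (fun n hn => hn₂ n ((le_max_right _ _).trans hn)) hval
    (fun a ha b hb n hn => hav a ha b hb n ((le_max_left _ _).trans hn)
      (by have := hn₂ n ((le_max_right _ _).trans hn); omega))
    hε0 (fun θ => hlow u (by omega) θ)
  have h0 := trans_zero h δ hδ'.le hK (show 1 ≤ u by omega)
  have hkey : (A.card : ℝ) ≤ 2 * C / W * (2 : ℝ) ^ (-(γ * u)) * N := by
    have h1 := (mul_le_mul_of_nonneg_right h0 (Nat.cast_nonneg _)).trans hb
    rw [← hW, hε] at h1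
    calc (A.card : ℝ) ≤ 2 * (C * (2 : ℝ) ^ (-(γ * u))) * N / W :=
          (le_div_iff₀ hW0).2 (by linarith)
      _ = _ := by ring
  have hpow : (2 : ℝ) ^ (-(γ * u)) * (N : ℝ) ^ c ≤ ((H : ℝ) * 2 ^ L) ^ c := by
    have h1 : (N : ℝ) ≤ ((H : ℝ) * 2 ^ L) * (2 : ℝ) ^ (L * u) := by
      have : (N : ℝ) ≤ ((H * 2 ^ (L * u + L) : ℕ) : ℝ) := Nat.cast_le.2 hup.le
      refine this.trans (le_of_eq ?_)
      push_cast
      rw [pow_add]; ring
    calc (2 : ℝ) ^ (-(γ * u)) * (N : ℝ) ^ c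
        ≤ (2 : ℝ) ^ (-(γ * u)) * (((H : ℝ) * 2 ^ L) * (2 : ℝ) ^ (L * u)) ^ c :=
          mul_le_mul_of_nonneg_left (Real.rpow_le_rpow hNR.le h1 hc0.le) (by positivity)
      _ = _ := by
          have hLc : ((L * u : ℕ) : ℝ) * c = γ * u := by
            have : (L : ℝ) ≠ 0 := by exact_mod_cast hL0.ne'
            rw [hc]; push_cast; field_simp
          rw [Real.mul_rpow (by positivity) (by positivity), ← Real.rpow_natCast 2 (L * u),
            ← Real.rpow_mul two_pos.le, hLc, mul_left_comm, ← Real.rpow_add two_pos,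
            neg_add_cancel, Real.rpow_zero, mul_one]
  rw [hsplit]
  have hNc : (0 : ℝ) < (N : ℝ) ^ c := Real.rpow_pos_of_pos hNR _
  calc (A.card : ℝ) ≤ 2 * C / W * (2 : ℝ) ^ (-(γ * u)) * N := hkey
    _ = 2 * C / W * ((2 : ℝ) ^ (-(γ * u)) * (N : ℝ) ^ c) * (N / (N : ℝ) ^ c) := by
        field_simp
    _ ≤ C₁ * (N / (N : ℝ) ^ c) := by
        refine mul_le_mul_of_nonneg_right ?_ (by positivity)
        exact (mul_le_mul_of_nonneg_left hpow (by positivity)).trans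
          (le_add_of_nonneg_right (by positivity))

end

end Vale.Agent.P042.Odd
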