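import Vale.Agent.P042.Odd.Defs

/-!
The arithmetic factor is nonnegative for denominators up to `D` and tiny above `D`.

The factor is multiplicative in the denominator. At a prime power, with `r = p ^ (-δ)`, it equals
`r ^ J + (1 - r) ∑ i < J, r ^ i R (p ^ i)`, where the complete sums `R (p ^ i)` are real and decay
geometrically away from `i = J`; so it is positive once `δ` is small, uniformly in `p`.
-/

open Finset Polynomial ArithmeticFunction

namespace Vale.Agent.P042.Odd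

open Vale.Agent.P042.Upper

noncomputable section

/-- `τ (n) ≤ C n ^ ε`. -/
theorem exists_card_divisors_le {ε : ℝ} (hε : 0 < ε) :
    ∃ C : ℝ, 1 ≤ C ∧ ∀ n : ℕ, n ≠ 0 → (n.divisors.card : ℝ) ≤ C * (n : ℝ) ^ ε := by
  set m : ℝ := min 1 (ε * Real.log 2) with hm
  have hmpos : 0 < m := lt_min one_pos (mul_pos hε (Real.log_pos one_lt_two))
  have hm1 : m ≤ 1 := min_le_left _ _
  have hK : 1 ≤ 1 / m := by rw [le_div_iff₀ hmpos, one_mul]; exact hm1
  set P : ℕ := ⌈(2 : ℝ) ^ (1 / ε)⌉₊ with hP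
  refine ⟨(1 / m) ^ P, one_le_pow₀ hK, fun n hn => ?_⟩
  rw [Nat.card_divisors hn, Nat.cast_prod]
  have hterm : ∀ p ∈ n.primeFactors, ((n.factorization p + 1 : ℕ) : ℝ) ≤
      (if p < P then 1 / m else 1) * ((p : ℝ) ^ ε) ^ n.factorization p := by
    intro p hp
    have hp2 : (2 : ℝ) ≤ p := by exact_mod_cast (Nat.prime_of_mem_primeFactors hp).two_le
    set a := n.factorization p
    push_cast
    split_ifs with hpP
    · have h1 : 1 + (a : ℝ) * (ε * Real.log 2) ≤ ((p : ℝ) ^ ε) ^ a := by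
        have h2 : 1 + (a : ℝ) * (ε * Real.log 2) ≤ Real.exp ((a : ℝ) * (ε * Real.log 2)) := by
          linarith [Real.add_one_le_exp ((a : ℝ) * (ε * Real.log 2))]
        refine h2.trans (le_of_eq_of_le ?_ (pow_le_pow_left₀ (by positivity)
          (Real.rpow_le_rpow (by norm_num) hp2 hε.le) a))
        rw [Real.rpow_def_of_pos (by norm_num), ← Real.exp_nat_mul, mul_comm ε]
      rw [one_div, inv_mul_eq_div, le_div_iff₀ hmpos]
      have h3 : m ≤ ε * Real.log 2 := min_le_right _ _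
      have h4 := mul_le_mul_of_nonneg_left h3 (Nat.cast_nonneg (α := ℝ) a)
      nlinarith
    · rw [one_mul]
      have h1 : (2 : ℝ) ≤ (p : ℝ) ^ ε := by
        have h2 : (2 : ℝ) ^ (1 / ε) ≤ p :=
          (Nat.le_ceil _).trans (by exact_mod_cast not_lt.1 hpP)
        have h3 := Real.rpow_le_rpow (by positivity) h2 hε.le
        rwa [← Real.rpow_mul (by norm_num), one_div_mul_cancel hε.ne', Real.rpow_one] at h3
      refine le_trans ?_ (pow_le_pow_left₀ (by norm_num) h1 a)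
      exact_mod_cast Nat.lt_two_pow_self (n := a)
  refine (prod_le_prod (fun p _ => by positivity) hterm).trans ?_
  rw [prod_mul_distrib]
  refine mul_le_mul ?_ (le_of_eq ?_) (prod_nonneg fun p _ => by positivity) (by positivity)
  · rw [prod_ite, prod_const_one, mul_one, prod_const]
    refine pow_le_pow_right₀ hK ?_
    calc _ ≤ (range P).card := card_le_card fun p hp => mem_range.2 (mem_filter.1 hp).2
      _ = P := card_range P
  · rw [prod_congr rfl fun p _ => (Real.rpow_pow_comm (Nat.cast_nonneg p) ε (n.factorization p)),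
      Real.finsetProd_rpow _ _ fun p _ => by positivity]
    congr 1
    conv_rhs => rw [← Nat.prod_factorization_pow_eq_self hn]
    rw [Finsupp.prod, Nat.support_factorization, Nat.cast_prod]
    simp

theorem sum_divisors_coprime {M : Type*} [AddCommMonoid M] {m n : ℕ} (h : Nat.Coprime m n)
    (f : ℕ → M) :
    ∑ d ∈ (m * n).divisors, f d = ∑ x ∈ m.divisors, ∑ y ∈ n.divisors, f (x * y) := by
  rw [Nat.divisors_mul, Finset.mul_def, sum_image h.mul_injOn_divisors, sum_product]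

theorem R_one_left (h : ℤ[X]) (a : ℤ) (e : ℕ) : R h a 1 e = 1 := by
  rw [R, gauss_const _ a one_ne_zero (fun x => by simp), Complex.one_re]

/-- The twist at a prime power. -/
theorem G_prime_pow_succ (h : ℤ[X]) (a : ℤ) (q : ℕ) {p : ℕ} (hp : p.Prime) (i : ℕ) :
    G h a q (p ^ (i + 1)) = R h a q (p ^ (i + 1)) - R h a q (p ^ i) := by
  rw [G, Nat.sum_divisors_prime_pow hp, sum_range_succ, sum_range_succ,
    sum_eq_zero (fun l hl => ?_)]
  · rw [Nat.div_self (pow_pos hp.pos _), Nat.pow_div (by omega) hp.pos,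
      show i + 1 - i = 1 by omega, pow_one, moebius_apply_prime hp, moebius_apply_one]
    push_cast
    ring
  · have hl' : l < i := mem_range.1 hl
    rw [Nat.pow_div (by omega) hp.pos, moebius_apply_prime_pow hp (by omega),
      if_neg (by omega)]
    simp

/-- The twist only lives on the divisors of the denominator. -/
theorem G_eq_zero {h : ℤ[X]} (hodd : ∀ x, h.eval (-x) = -h.eval x) (u : ℤ[X]) (v : ℕ) (hv : 1 ≤ v)
    (hu : h = X ^ v * u) {a : ℤ} {q d : ℕ} (hq : q ≠ 0) (ha : Int.gcd a q = 1) (hd : d ≠ 0)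
    (hdq : ¬ d ∣ q) : G h a q d = 0 := by
  obtain ⟨p, hlt⟩ : ∃ p, q.factorization p < d.factorization p := by
    by_contra hcon
    push Not at hcon
    exact hdq ((Nat.factorization_le_iff_dvd hd hq).1 fun p => hcon p)
  have hp : p.Prime := Nat.prime_of_mem_primeFactors (by
    rw [← Nat.support_factorization, Finsupp.mem_support_iff]
    exact Nat.ne_of_gt (Nat.zero_le _ |>.trans_lt hlt))
  set j := q.factorization p with hj
  obtain ⟨i, hi⟩ : ∃ i, d.factorization p = i + 1 := ⟨d.factorization p - 1, by omega⟩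
  obtain ⟨r, hr, hqr⟩ : ∃ r, Nat.Coprime p r ∧ q = p ^ j * r :=
    ⟨q / p ^ j, Nat.coprime_ordCompl hp hq, (Nat.ordProj_mul_ordCompl_eq_self q p).symm⟩
  obtain ⟨d', hd', hdd⟩ : ∃ d', Nat.Coprime p d' ∧ d = p ^ (i + 1) * d' :=
    ⟨d / p ^ (i + 1), hi ▸ Nat.coprime_ordCompl hp hd,
      by rw [← hi]; exact (Nat.ordProj_mul_ordCompl_eq_self d p).symm⟩
  have hr0 : r ≠ 0 := fun h0 => hq (by rw [hqr, h0, mul_zero])
  have hd0 : d' ≠ 0 := fun h0 => hd (by rw [hdd, h0, mul_zero])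
  have ha' : Int.gcd a ((p ^ j * r : ℕ) : ℕ) = 1 := by rwa [← hqr]
  obtain ⟨b, c, -, -, hR⟩ := R_mul hodd a (hr.pow_left j) (pow_ne_zero j hp.ne_zero) hr0 ha'
  have key : ∀ s e : ℕ, j ≤ s → R h a q (p ^ s * e) = R h c r e := by
    intro s e hs
    rw [hqr, hR, R_eq_one h u v hu b (pow_ne_zero j hp.ne_zero) ?_, one_mul, mul_comm (p ^ s),
      R_coprime h c hr0 (hr.pow_left s)]
    refine dvd_pow ?_ (by omega)
    exact Dvd.dvd.mul_right (pow_dvd_pow p hs) e
  have hcop : Nat.Coprime (p ^ (i + 1)) d' := hd'.pow_left _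
  rw [G, hdd, sum_divisors_coprime hcop, sum_comm]
  refine sum_eq_zero fun e he => ?_
  have hed : e ∣ d' := (Nat.mem_divisors.1 he).1
  rw [Nat.sum_divisors_prime_pow hp]
  have hterm : ∀ l ∈ range (i + 1 + 1),
      (moebius (p ^ (i + 1) * d' / (p ^ l * e)) : ℝ) * R h a q (p ^ l * e) =
        (moebius (p ^ (i + 1 - l)) : ℝ) * ((moebius (d' / e) : ℝ) * R h a q (p ^ l * e)) := by
    intro l hl
    have hl' : l ≤ i + 1 := by rw [mem_range] at hl; omega
    rw [← Nat.div_mul_div_comm (pow_dvd_pow p hl') hed, Nat.pow_div hl' hp.pos,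
      isMultiplicative_moebius.map_mul_of_coprime
        ((hd'.pow_left _).coprime_dvd_right (Nat.div_dvd_of_dvd hed))]
    push_cast
    ring
  rw [sum_congr rfl hterm, sum_range_succ, sum_range_succ, sum_eq_zero (fun l hl => ?_)]
  · rw [key (i + 1) e (by omega), key i e (by omega), show i + 1 - i = 1 by omega, pow_one,
      Nat.sub_self, pow_zero, moebius_apply_prime hp, moebius_apply_one]
    push_cast
    ring
  · have hl' : l < i := mem_range.1 hl
    rw [moebius_apply_prime_pow hp (by omega), if_neg (by omega)]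
    simp

theorem G_mul (h : ℤ[X]) {a b c : ℤ} {q r : ℕ} (hq : q ≠ 0) (hr : r ≠ 0) (hqr : Nat.Coprime q r)
    (hR : ∀ e, R h a (q * r) e = R h b q e * R h c r e) {d₁ d₂ : ℕ} (h1 : d₁ ∣ q) (h2 : d₂ ∣ r) :
    G h a (q * r) (d₁ * d₂) = G h b q d₁ * G h c r d₂ := by
  have hcop : Nat.Coprime d₁ d₂ := (hqr.coprime_dvd_left h1).coprime_dvd_right h2
  rw [G, G, G, sum_divisors_coprime hcop, sum_mul_sum]
  refine sum_congr rfl fun e₁ he₁ => sum_congr rfl fun e₂ he₂ => ?_
  have he1 : e₁ ∣ d₁ := (Nat.mem_divisors.1 he₁).1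
  have he2 : e₂ ∣ d₂ := (Nat.mem_divisors.1 he₂).1
  rw [hR, R_coprime h b hq ((hqr.coprime_dvd_right (he2.trans h2)).symm), mul_comm e₁ e₂,
    R_coprime h c hr (hqr.coprime_dvd_left (he1.trans h1)), mul_comm e₂ e₁,
    ← Nat.div_mul_div_comm he1 he2, isMultiplicative_moebius.map_mul_of_coprime
      ((hcop.coprime_dvd_left (Nat.div_dvd_of_dvd he1)).coprime_dvd_right
        (Nat.div_dvd_of_dvd he2))]
  push_cast
  ring

/-- The arithmetic factor without truncation. -/
def Fq (h : ℤ[X]) (δ : ℝ) (a : ℤ) (q : ℕ) : ℝ :=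
  ∑ d ∈ q.divisors, (d : ℝ) ^ (-δ) * G h a q d

theorem Fq_one (h : ℤ[X]) (δ : ℝ) (a : ℤ) : Fq h δ a 1 = 1 := by
  simp [Fq, G, R_one_left]

theorem Fq_mul {h : ℤ[X]} (hodd : ∀ x, h.eval (-x) = -h.eval x) (δ : ℝ) {a : ℤ} {q r : ℕ}
    (hq : q ≠ 0) (hr : r ≠ 0) (hqr : Nat.Coprime q r) (ha : Int.gcd a (q * r : ℕ) = 1) :
    ∃ b c : ℤ, Int.gcd b q = 1 ∧ Int.gcd c r = 1 ∧
      Fq h δ a (q * r) = Fq h δ b q * Fq h δ c r := by
  obtain ⟨b, c, hb, hc, hR⟩ := R_mul hodd a hqr hq hr ha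
  refine ⟨b, c, hb, hc, ?_⟩
  rw [Fq, Fq, Fq, sum_divisors_coprime hqr, sum_mul_sum]
  refine sum_congr rfl fun d₁ h1 => sum_congr rfl fun d₂ h2 => ?_
  rw [G_mul h hq hr hqr hR (Nat.mem_divisors.1 h1).1 (Nat.mem_divisors.1 h2).1, Nat.cast_mul,
    Real.mul_rpow (Nat.cast_nonneg _) (Nat.cast_nonneg _)]
  ring

theorem geom_rev_le {y : ℝ} (hy0 : 0 ≤ y) (hy1 : y < 1) (J : ℕ) :
    ∑ i ∈ range J, y ^ (J - i) ≤ y / (1 - y) := by
  induction J with
  | zero => simpa using div_nonneg hy0 (by linarith)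
  | succ J ih =>
    have h1 : ∑ i ∈ range (J + 1), y ^ (J + 1 - i) = y * (∑ i ∈ range J, y ^ (J - i) + 1) := by
      rw [sum_range_succ, show J + 1 - J = 1 by omega, pow_one, mul_add, mul_one, mul_sum]
      congr 1
      refine sum_congr rfl fun i hi => ?_
      rw [← pow_succ', show J + 1 - i = J - i + 1 by rw [mem_range] at hi; omega]
    rw [h1]
    refine (mul_le_mul_of_nonneg_left (by linarith : _ ≤ y / (1 - y) + 1) hy0).trans_eq ?_
    have : 1 - y ≠ 0 := by linarith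
    field_simp
    ring

/-- The factor at a prime power is nonnegative. -/
theorem Fq_prime_pow_nonneg (h u : ℤ[X]) (v : ℕ) (hv : 1 ≤ v) (hu : h = X ^ v * u) {C η δ : ℝ}
    (hC : 0 ≤ C) (hη : 0 < η) (hδ0 : 0 < δ) (hδη : δ ≤ η / 2)
    (hδ : C * δ * (2 / η) ≤ 1 - (2 : ℝ) ^ (-(η / 2))) {p j : ℕ} (hp : p.Prime) {a : ℤ}
    (hbd : ∀ e : ℕ, 1 ≤ e →
      |R h a (p ^ j) e| ≤ C * ((((e ^ v : ℕ) : ℝ)) / ((p ^ j : ℕ) : ℝ)) ^ η) :
    0 ≤ Fq h δ a (p ^ j) := by
  have hp0 : (0 : ℝ) < p := by exact_mod_cast hp.pos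
  have hp2 : (2 : ℝ) ≤ p := by exact_mod_cast hp.two_le
  set r : ℝ := (p : ℝ) ^ (-δ) with hr
  set S : ℕ → ℝ := fun i => R h a (p ^ j) (p ^ i) with hS
  have hr0 : 0 < r := Real.rpow_pos_of_pos hp0 _
  have hr1 : r ≤ 1 := Real.rpow_le_one_of_one_le_of_nonpos (by linarith) (by linarith)
  have hrpow : ∀ i : ℕ, (((p ^ i : ℕ) : ℝ)) ^ (-δ) = r ^ i := fun i => by
    rw [Nat.cast_pow, hr, ← Real.rpow_pow_comm hp0.le]
  have hFq : Fq h δ a (p ^ j) = S 0 + ∑ i ∈ range j, r ^ (i + 1) * (S (i + 1) - S i) := by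
    rw [Fq, Nat.sum_divisors_prime_pow hp, sum_range_succ', add_comm]
    congr 1
    · simp [G, hS]
    · exact sum_congr rfl fun i _ => by rw [hrpow, G_prime_pow_succ h a _ hp]
  obtain ⟨J, hJ1, hJmin⟩ : ∃ J, j ≤ v * J ∧ ∀ i < J, v * i < j := by
    have hex : ∃ J, j ≤ v * J := ⟨j, Nat.le_mul_of_pos_left j (by omega)⟩
    exact ⟨Nat.find hex, Nat.find_spec hex, fun i hi => not_le.1 (Nat.find_min hex hi)⟩
  have hJj : J ≤ j := by
    by_contra hcon
    have := hJmin j (by omega)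
    have h2 := Nat.le_mul_of_pos_left j (show 0 < v by omega)
    omega
  have hone : ∀ i, J ≤ i → S i = 1 := fun i hi => by
    refine R_eq_one h u v hu a (pow_ne_zero j hp.ne_zero) ?_
    rw [← pow_mul]
    exact pow_dvd_pow p (hJ1.trans (by rw [mul_comm]; exact Nat.mul_le_mul_right v hi))
  have htel : ∀ n, S 0 + ∑ i ∈ range n, r ^ (i + 1) * (S (i + 1) - S i) =
      (1 - r) * (∑ i ∈ range n, r ^ i * S i) + r ^ n * S n := by
    intro n
    induction n with
    | zero => simp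
    | succ n ih => rw [sum_range_succ, sum_range_succ, ← add_assoc, ih]; ring
  have hcut : ∑ i ∈ range j, r ^ (i + 1) * (S (i + 1) - S i) =
      ∑ i ∈ range J, r ^ (i + 1) * (S (i + 1) - S i) := by
    refine (sum_subset (range_mono hJj) fun i _ hi => ?_).symm
    rw [mem_range, not_lt] at hi
    rw [hone i hi, hone (i + 1) (by omega)]
    ring
  set x : ℝ := ((1 : ℝ) / p) ^ η with hx
  have hx0 : 0 < x := by positivity
  have hSb : ∀ i ∈ range J, |S i| ≤ C * x ^ (J - i) := by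
    intro i hi
    rw [mem_range] at hi
    have hexp : v * i + (J - i) ≤ j := by
      obtain ⟨t, rfl⟩ : ∃ t, J = i + t + 1 := ⟨J - i - 1, by omega⟩
      have h1 := hJmin (i + t) (by omega)
      have h2 := Nat.le_mul_of_pos_left t (show 0 < v by omega)
      rw [mul_add] at h1
      omega
    refine (hbd (p ^ i) (pow_pos hp.pos _)).trans (mul_le_mul_of_nonneg_left ?_ hC)
    rw [hx, Real.rpow_pow_comm (by positivity)]
    refine Real.rpow_le_rpow (by positivity) ?_ hη.le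
    rw [Nat.cast_pow, Nat.cast_pow, Nat.cast_pow, ← pow_mul, one_div_pow,
      div_le_div_iff₀ (by positivity) (by positivity), one_mul, ← pow_add, mul_comm i v]
    exact pow_le_pow_right₀ (by linarith) hexp
  set y : ℝ := x / r with hy
  set z : ℝ := (p : ℝ) ^ (-(η / 2)) with hz
  have hz0 : (2 : ℝ) ^ (-(η / 2)) < 1 :=
    Real.rpow_lt_one_of_one_lt_of_neg one_lt_two (by linarith)
  have hzle : z ≤ (2 : ℝ) ^ (-(η / 2)) :=
    Real.rpow_le_rpow_of_nonpos (by norm_num) hp2 (by linarith)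
  have hy0 : 0 ≤ y := by positivity
  have hyz : y ≤ z := by
    rw [hy, hx, hr, one_div, Real.inv_rpow hp0.le, ← Real.rpow_neg hp0.le, ← Real.rpow_sub hp0]
    exact Real.rpow_le_rpow_of_exponent_le (by linarith) (by linarith)
  have hy1 : y < 1 := by linarith
  have hlog : (1 - r) ≤ δ * Real.log p := by
    rw [hr, Real.rpow_def_of_pos hp0]
    have := Real.add_one_le_exp (Real.log p * -δ)
    linarith [this, mul_comm (Real.log (p : ℝ)) δ]
  have hlz : Real.log p * z ≤ 2 / η := by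
    have h1 := Real.log_le_rpow_div hp0.le (show 0 < η / 2 by linarith)
    rw [hz, Real.rpow_neg hp0.le]
    have h2 : 0 < (p : ℝ) ^ (η / 2) := Real.rpow_pos_of_pos hp0 _
    rw [← div_eq_mul_inv, div_le_iff₀ h2]
    refine h1.trans_eq ?_
    field_simp
  have hkey : C * ((1 - r) * (y / (1 - y))) ≤ 1 := by
    have h1 : (1 - r) * (y / (1 - y)) ≤ δ * (2 / η) / (1 - (2 : ℝ) ^ (-(η / 2))) := by
      rw [← mul_div_assoc]
      refine div_le_div₀ (by positivity) ?_ (by linarith) (by linarith)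
      calc (1 - r) * y ≤ (δ * Real.log p) * z :=
            mul_le_mul hlog hyz hy0 (mul_nonneg hδ0.le (Real.log_nonneg (by linarith)))
        _ ≤ _ := by rw [mul_assoc]; exact mul_le_mul_of_nonneg_left hlz hδ0.le
    refine (mul_le_mul_of_nonneg_left h1 hC).trans ?_
    rw [← mul_div_assoc, ← mul_assoc, div_le_one (by linarith)]
    exact hδ
  rw [hFq, hcut, htel J, hone J le_rfl, mul_one]
  have hsum : -(C * r ^ J * (y / (1 - y))) ≤ ∑ i ∈ range J, r ^ i * S i := by
    refine le_trans ?_ (neg_abs_le _)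
    refine neg_le_neg ((abs_sum_le_sum_abs _ _).trans ?_)
    calc ∑ i ∈ range J, |r ^ i * S i| ≤ ∑ i ∈ range J, C * r ^ J * y ^ (J - i) := by
          refine sum_le_sum fun i hi => ?_
          rw [abs_mul, abs_of_pos (pow_pos hr0 i)]
          refine (mul_le_mul_of_nonneg_left (hSb i hi) (by positivity)).trans_eq ?_
          have hJ' : r ^ J = r ^ i * r ^ (J - i) := by
            rw [← pow_add]; congr 1; rw [mem_range] at hi; omega
          rw [hy, div_pow, hJ']
          field_simp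
      _ ≤ _ := by
          rw [← mul_sum]
          exact mul_le_mul_of_nonneg_left (geom_rev_le hy0 hy1 J) (by positivity)
  have h2 := mul_le_mul_of_nonneg_left hsum (sub_nonneg.2 hr1)
  have h3 := mul_le_mul_of_nonneg_left hkey (pow_pos hr0 J).le
  linarith

/-- There is an exponent making the arithmetic factor almost nonnegative, uniformly. -/
theorem arith_main (h : ℤ[X]) (hodd : ∀ x, h.eval (-x) = -h.eval x) (hh : h ≠ 0) :
    ∃ δ κ C : ℝ, 0 < δ ∧ 0 < κ ∧ 0 ≤ C ∧ ∀ D q : ℕ, 1 ≤ D → 1 ≤ q → ∀ a : ℤ, Int.gcd a q = 1 →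
      |F h δ D a q| ≤ C ∧ (q ≤ D → 0 ≤ F h δ D a q) ∧
      (D < q → |F h δ D a q| ≤ C * (D : ℝ) ^ (-κ)) := by
  set v := h.rootMultiplicity 0 with hvdef
  obtain ⟨u, hu, hndvd⟩ := h.exists_eq_pow_rootMultiplicity_mul_and_not_dvd hh 0
  rw [← hvdef, C_0, sub_zero] at hu
  rw [C_0, sub_zero] at hndvd
  have hu0 : u.coeff 0 ≠ 0 := fun h0 => hndvd (X_dvd_iff.2 h0)
  have hroot : h.IsRoot 0 := by
    have h1 := hodd 0
    rw [neg_zero] at h1
    simp only [IsRoot]
    omega
  have hv : 1 ≤ v := (rootMultiplicity_pos hh).2 hroot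
  obtain ⟨C₀, η, hC₀, hη, hbd⟩ := exists_R_bound h h.natDegree le_rfl u v hv hu hu0
  have hgap : 0 < 1 - (2 : ℝ) ^ (-(η / 2)) :=
    sub_pos.2 (Real.rpow_lt_one_of_one_lt_of_neg one_lt_two (by linarith))
  set δ : ℝ := min (η / 2) ((1 - (2 : ℝ) ^ (-(η / 2))) * η / (2 * C₀)) with hδdef
  have hδ0 : 0 < δ := lt_min (by linarith) (by positivity)
  have hδη : δ ≤ η / 2 := min_le_left _ _
  have hδgap : C₀ * δ * (2 / η) ≤ 1 - (2 : ℝ) ^ (-(η / 2)) := by
    have h1 : δ ≤ (1 - (2 : ℝ) ^ (-(η / 2))) * η / (2 * C₀) := min_le_right _ _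
    rw [le_div_iff₀ (by linarith)] at h1
    rw [← mul_div_assoc, div_le_iff₀ hη]
    linarith
  have hv0 : (0 : ℝ) < v := by exact_mod_cast hv
  set κ : ℝ := δ / (2 * v) with hκdef
  have hκ : 0 < κ := by positivity
  obtain ⟨Cτ, hCτ, hτ⟩ := exists_card_divisors_le (show 0 < κ / 2 by positivity)
  have hC : 0 ≤ C₀ * Cτ ^ 2 := by positivity
  refine ⟨δ, κ, C₀ * Cτ ^ 2, hδ0, hκ, hC, fun D q hD hq a ha => ?_⟩
  have hq0 : q ≠ 0 := by omega
  have hqR : (1 : ℝ) ≤ q := by exact_mod_cast hq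
  have hF : F h δ D a q =
      ∑ d ∈ q.divisors.filter (· ≤ D), (d : ℝ) ^ (-δ) * G h a q d := by
    refine (sum_subset ?_ fun d hd hd' => ?_).symm
    · intro d hd
      rw [mem_filter] at hd
      exact mem_Icc.2 ⟨Nat.pos_of_mem_divisors hd.1, hd.2⟩
    · rw [mem_Icc] at hd
      rw [G_eq_zero hodd u v hv hu hq0 ha (by omega) (fun hdvd => hd' (mem_filter.2
        ⟨Nat.mem_divisors.2 ⟨hdvd, hq0⟩, hd.2⟩)), mul_zero]
  have hexp : δ / v ≤ η :=
    (div_le_self hδ0.le (by exact_mod_cast hv)).trans (by linarith)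
  have hterm : ∀ e : ℕ, 1 ≤ e → (e : ℝ) ^ (-δ) * |R h a q e| ≤ C₀ * (q : ℝ) ^ (-(δ / v)) := by
    intro e he
    have he0 : (0 : ℝ) < e := by exact_mod_cast he
    set t : ℝ := (((e ^ v : ℕ) : ℝ)) / q with ht
    have ht0 : 0 < t := by
      rw [ht, Nat.cast_pow]; positivity
    have h1 : |R h a q e| ≤ C₀ * t ^ (δ / v) := by
      rcases le_total t 1 with ht1 | ht1
      · exact (hbd q hq a ha e he).trans (mul_le_mul_of_nonneg_left
          (Real.rpow_le_rpow_of_exponent_ge ht0 ht1 hexp) (by linarith))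
      · exact (abs_R_le_one h a q e).trans
          (one_le_mul_of_one_le_of_one_le hC₀ (Real.one_le_rpow ht1 (by positivity)))
    refine (mul_le_mul_of_nonneg_left h1 (by positivity)).trans_eq ?_
    have h2 : t ^ (δ / v) = (e : ℝ) ^ δ * (q : ℝ) ^ (-(δ / v)) := by
      rw [ht, Nat.cast_pow, Real.div_rpow (by positivity) (by positivity),
        ← Real.rpow_natCast_mul he0.le, mul_div_cancel₀ _ hv0.ne', Real.rpow_neg (by positivity),
        div_eq_mul_inv]
    rw [h2, mul_left_comm C₀, ← mul_assoc, ← Real.rpow_add he0, neg_add_cancel, Real.rpow_zero,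
      one_mul]
  have habs : |F h δ D a q| ≤ C₀ * Cτ ^ 2 * (q : ℝ) ^ (-κ) := by
    rw [hF]
    refine (abs_sum_le_sum_abs _ _).trans ?_
    refine le_trans (sum_le_sum (g := fun _ =>
      (q.divisors.card : ℝ) * (C₀ * (q : ℝ) ^ (-(δ / v)))) fun d hd => ?_) ?_
    · rw [mem_filter, Nat.mem_divisors] at hd
      have hd1 : 1 ≤ d := Nat.pos_of_dvd_of_pos hd.1.1 (by omega)
      rw [abs_mul, abs_of_nonneg (Real.rpow_nonneg (Nat.cast_nonneg _) _), G]
      refine (mul_le_mul_of_nonneg_left (abs_sum_le_sum_abs _ _)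
        (Real.rpow_nonneg (Nat.cast_nonneg _) _)).trans ?_
      rw [mul_sum]
      refine (sum_le_sum (g := fun _ => C₀ * (q : ℝ) ^ (-(δ / v))) fun e he => ?_).trans ?_
      · have he1 : 1 ≤ e := Nat.pos_of_mem_divisors he
        have hed : (e : ℝ) ≤ d := by exact_mod_cast Nat.divisor_le he
        refine le_trans ?_ (hterm e he1)
        refine mul_le_mul (Real.rpow_le_rpow_of_nonpos (by exact_mod_cast he1) hed (by linarith))
          ?_ (abs_nonneg _) (by positivity)
        rw [abs_mul]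
        refine mul_le_of_le_one_left (abs_nonneg _) ?_
        exact_mod_cast abs_moebius_le_one (n := d / e)
      · rw [sum_const, nsmul_eq_mul]
        refine mul_le_mul_of_nonneg_right ?_ (by positivity)
        exact_mod_cast card_le_card (Nat.divisors_subset_of_dvd hq0 hd.1.1)
    · rw [sum_const, nsmul_eq_mul]
      have hcard : ((q.divisors.filter (· ≤ D)).card : ℝ) ≤ (q.divisors.card : ℝ) := by
        exact_mod_cast card_filter_le _ _
      have hB : 0 ≤ C₀ * (q : ℝ) ^ (-(δ / v)) :=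
        mul_nonneg (by linarith) (Real.rpow_nonneg (by linarith) _)
      refine (mul_le_mul_of_nonneg_right hcard (mul_nonneg (Nat.cast_nonneg _) hB)).trans ?_
      have h2 := hτ q hq0
      refine (mul_le_mul h2 (mul_le_mul_of_nonneg_right h2 hB) (mul_nonneg (Nat.cast_nonneg _) hB)
        (le_trans (Nat.cast_nonneg _) h2)).trans_eq ?_
      have h3 : (q : ℝ) ^ (κ / 2) * (q : ℝ) ^ (κ / 2) * (q : ℝ) ^ (-(δ / v)) = (q : ℝ) ^ (-κ) := by
        rw [← Real.rpow_add (by linarith), ← Real.rpow_add (by linarith)]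
        congr 1
        rw [hκdef]
        field_simp
        ring
      rw [← h3]
      ring
  refine ⟨habs.trans (mul_le_of_le_one_right hC
    (Real.rpow_le_one_of_one_le_of_nonpos hqR (by linarith))), fun hqD => ?_, fun hDq => ?_⟩
  · have hfull : F h δ D a q = Fq h δ a q := by
      rw [hF, filter_true_of_mem (fun d hd => (Nat.divisor_le hd).trans hqD), Fq]
    rw [hfull]
    suffices H : ∀ n : ℕ, 0 < n → ∀ b : ℤ, Int.gcd b n = 1 → 0 ≤ Fq h δ b n from H q hq a ha
    intro n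
    induction n using Nat.recOnPosPrimePosCoprime with
    | zero => intro hn; omega
    | one => intro _ b _; rw [Fq_one]; exact zero_le_one
    | prime_pow p j hp hj =>
      intro hn b hb
      exact Fq_prime_pow_nonneg h u v hv hu (by linarith) hη hδ0 hδη hδgap hp
        (fun e he => hbd (p ^ j) hn b hb e he)
    | coprime m n hm hn hmn ihm ihn =>
      intro _ b hb
      obtain ⟨b₁, c₁, hb₁, hc₁, hmul⟩ :=
        Fq_mul hodd δ (show m ≠ 0 by omega) (show n ≠ 0 by omega) hmn hb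
      rw [hmul]
      exact mul_nonneg (ihm (by omega) b₁ hb₁) (ihn (by omega) c₁ hc₁)
  · refine habs.trans (mul_le_mul_of_nonneg_left ?_ hC)
    exact Real.rpow_le_rpow_of_nonpos (by exact_mod_cast hD) (by exact_mod_cast hDq.le)
      (by linarith)

end

end Vale.Agent.P042.Odd
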