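import Vale.Agent.P042.Upper.Local

/-!
Complete exponential sums of the dilates `h (e X)` of an odd polynomial `h`.
-/

open Finset Polynomial

namespace Vale.Agent.P042.Odd

open Vale.Agent.P042.Upper Vale.Agent.P042.Upper.Local

noncomputable section

/-- The dilate `h (e X)`. -/
def dil (h : ℤ[X]) (e : ℕ) : ℤ[X] := h.comp (C (e : ℤ) * X)

theorem eval_dil (h : ℤ[X]) (e : ℕ) (x : ℤ) : (dil h e).eval x = h.eval ((e : ℤ) * x) := by
  simp [dil]

/-- The normalised complete sum of the dilate, a real number when `h` is odd. -/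
def R (h : ℤ[X]) (a : ℤ) (q e : ℕ) : ℝ := (gauss (dil h e) a q).re

/-- Multiplication by a unit permutes the residues. -/
theorem sum_unit {q u : ℕ} (hq : q ≠ 0) (hu : Nat.Coprime u q) (F : ℕ → ℂ) :
    ∑ x ∈ range q, F (u * x % q) = ∑ x ∈ range q, F x := by
  have hinj : Set.InjOn (fun x => u * x % q) (range q : Finset ℕ) := by
    intro x hx y hy hxy
    have h1 : x ≡ y [MOD q] := Nat.ModEq.cancel_left_of_coprime (Nat.coprime_comm.1 hu) hxy
    exact Nat.ModEq.eq_of_lt_of_lt h1 (mem_range.1 hx) (mem_range.1 hy)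
  refine Finset.sum_nbij (fun x => u * x % q) (fun x _ => mem_range.2 (Nat.mod_lt _ (by omega)))
    hinj ?_ (fun _ _ => rfl)
  exact Finset.surjOn_of_injOn_of_card_le _ (fun x _ => mem_range.2 (Nat.mod_lt _ (by omega)))
    hinj le_rfl

theorem eq'_eval_mod (g : ℤ[X]) (a : ℤ) {q : ℕ} (hq : q ≠ 0) {x : ℕ} {y : ℤ}
    (h : (q : ℤ) ∣ (x : ℤ) - y) : eq' q (a * g.eval (x : ℤ)) = eq' q (a * g.eval y) :=
  eq'_congr hq (by
    rw [← mul_sub]
    exact (h.trans (Polynomial.sub_dvd_eval_sub _ _ g)).mul_left a)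

theorem gauss_dil_coprime (h : ℤ[X]) (a : ℤ) {q u : ℕ} (hq : q ≠ 0) (hu : Nat.Coprime u q) (e : ℕ) :
    gauss (dil h (e * u)) a q = gauss (dil h e) a q := by
  rw [gauss_eq, gauss_eq, ← sum_unit hq hu (fun x => eq' q (a * (dil h e).eval (x : ℤ)))]
  congr 1
  refine sum_congr rfl fun x _ => ?_
  rw [eq'_eval_mod (dil h e) a hq (x := u * x % q) (y := ((u * x : ℕ) : ℤ))
    (Nat.mod_modEq _ _).symm.dvd]
  simp [eval_dil, mul_assoc]

theorem R_coprime (h : ℤ[X]) (a : ℤ) {q u : ℕ} (hq : q ≠ 0) (hu : Nat.Coprime u q) (e : ℕ) :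
    R h a q (e * u) = R h a q e := by
  rw [R, R, gauss_dil_coprime h a hq hu]

theorem eq'_conj (q : ℕ) (n : ℤ) : starRingEnd ℂ (eq' q n) = eq' q (-n) := by
  rw [eq', eq', ← ee_neg]; congr 1; push_cast; ring

/-- The complete sums of an odd polynomial are real. -/
theorem gauss_real (g : ℤ[X]) (hodd : ∀ x, g.eval (-x) = -g.eval x) (a : ℤ) {q : ℕ} (hq : q ≠ 0) :
    (gauss g a q).im = 0 := by
  rw [← Complex.conj_eq_iff_im, gauss_eq, map_div₀, Complex.conj_natCast, map_sum]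
  congr 1
  have hu : Nat.Coprime (q - 1) q := by
    rcases Nat.lt_or_ge q 2 with h2 | h2
    · obtain rfl : q = 1 := by omega
      simp
    · exact Nat.Coprime.symm ((Nat.coprime_self_sub_right (by omega)).2 (Nat.coprime_one_right q))
  rw [← sum_unit hq hu (fun x => eq' q (a * g.eval (x : ℤ)))]
  refine sum_congr rfl fun x _ => ?_
  rw [eq'_conj, eq'_eval_mod g a hq (x := (q - 1) * x % q) (y := -(x : ℤ)), hodd, mul_neg]
  have h1 := (Nat.mod_modEq ((q - 1) * x) q).symm.dvd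
  have h2 : (q : ℤ) ∣ (((q - 1) * x : ℕ) : ℤ) - -(x : ℤ) := by
    refine ⟨x, ?_⟩
    rw [Nat.cast_mul, Nat.cast_sub (by omega)]
    push_cast
    ring
  have h3 := dvd_add h1 h2
  rwa [show ∀ A B D : ℤ, A - B + (B - D) = A - D from fun A B D => by ring] at h3

theorem dil_odd {h : ℤ[X]} (hodd : ∀ x, h.eval (-x) = -h.eval x) (e : ℕ) (x : ℤ) :
    (dil h e).eval (-x) = -(dil h e).eval x := by
  rw [eval_dil, eval_dil, mul_neg, hodd]

theorem gauss_dil_eq {h : ℤ[X]} (hodd : ∀ x, h.eval (-x) = -h.eval x) (a : ℤ) {q : ℕ} (hq : q ≠ 0)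
    (e : ℕ) : gauss (dil h e) a q = (R h a q e : ℂ) := by
  apply Complex.ext
  · simp [R]
  · simp [gauss_real _ (dil_odd hodd e) a hq]

/-- Chinese remainder theorem, with multipliers not depending on the polynomial. -/
theorem gauss_mul' (a : ℤ) {q r : ℕ} (h : Nat.Coprime q r) (hq : q ≠ 0) (hr : r ≠ 0)
    (ha : Int.gcd a (q * r : ℕ) = 1) :
    ∃ b c : ℤ, Int.gcd b q = 1 ∧ Int.gcd c r = 1 ∧
      ∀ g : ℤ[X], gauss g a (q * r) = gauss g b q * gauss g c r := by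
  have hco : IsCoprime (q : ℤ) (r : ℤ) := Nat.Coprime.isCoprime h
  obtain ⟨s, t, hst⟩ := hco
  have hco' : IsCoprime a ((q : ℤ) * r) := by
    rw [Int.isCoprime_iff_gcd_eq_one, ← Nat.cast_mul]; exact ha
  have hb : IsCoprime (a * t) (q : ℤ) :=
    IsCoprime.mul_left hco'.of_mul_right_left ⟨r, s, by rw [← hst]; ring⟩
  have hc : IsCoprime (a * s) (r : ℤ) :=
    IsCoprime.mul_left hco'.of_mul_right_right ⟨q, t, by rw [← hst]; ring⟩
  refine ⟨a * t, a * s, Int.isCoprime_iff_gcd_eq_one.1 hb, Int.isCoprime_iff_gcd_eq_one.1 hc,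
    fun g => ?_⟩
  rw [gauss_eq, gauss_eq, gauss_eq, div_mul_div_comm, ← sum_crt h hq hr, Nat.cast_mul]
  congr 1
  refine Finset.sum_congr rfl fun x _ => ?_
  rw [eq'_eval_mod g _ hq (x := x % q) (y := (x : ℤ)) (Nat.mod_modEq x q).symm.dvd,
    eq'_eval_mod g _ hr (x := x % r) (y := (x : ℤ)) (Nat.mod_modEq x r).symm.dvd]
  simp only [eq', ← ee_add]
  congr 1
  have e1 : (q : ℝ) ≠ 0 := Nat.cast_ne_zero.2 hq
  have e2 : (r : ℝ) ≠ 0 := Nat.cast_ne_zero.2 hr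
  have e3 : (s : ℝ) * q + t * r = 1 := by exact_mod_cast hst
  push_cast
  field_simp
  linear_combination (-(a : ℝ) * (g.eval (x : ℤ) : ℤ)) * e3

theorem R_mul {h : ℤ[X]} (hodd : ∀ x, h.eval (-x) = -h.eval x) (a : ℤ) {q r : ℕ}
    (hqr : Nat.Coprime q r) (hq : q ≠ 0) (hr : r ≠ 0) (ha : Int.gcd a (q * r : ℕ) = 1) :
    ∃ b c : ℤ, Int.gcd b q = 1 ∧ Int.gcd c r = 1 ∧
      ∀ e, R h a (q * r) e = R h b q e * R h c r e := by
  obtain ⟨b, c, hb, hc, hbc⟩ := gauss_mul' a hqr hq hr ha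
  refine ⟨b, c, hb, hc, fun e => ?_⟩
  have := hbc (dil h e)
  rw [gauss_dil_eq hodd a (mul_ne_zero hq hr), gauss_dil_eq hodd b hq,
    gauss_dil_eq hodd c hr] at this
  exact_mod_cast this

theorem abs_R_le_one (h : ℤ[X]) (a : ℤ) (q e : ℕ) : |R h a q e| ≤ 1 :=
  (Complex.abs_re_le_norm _).trans (norm_gauss_le_one _ _ _)

theorem gauss_const (g : ℤ[X]) (a : ℤ) {q : ℕ} (hq : q ≠ 0)
    (hg : ∀ x : ℤ, (q : ℤ) ∣ g.eval x) : gauss g a q = 1 := by
  rw [gauss_eq, sum_congr rfl (fun x _ => eq'_congr hq (m := 0) (by simpa using (hg x).mul_left a))]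
  simp [eq', ee_zero, hq]

theorem R_eq_one (h : ℤ[X]) (u : ℤ[X]) (v : ℕ) (hu : h = X ^ v * u) (a : ℤ) {q e : ℕ} (hq : q ≠ 0)
    (hd : q ∣ e ^ v) : R h a q e = 1 := by
  rw [R, gauss_const _ a hq (fun x => ?_), Complex.one_re]
  rw [eval_dil, hu, eval_mul, eval_pow, eval_X, mul_pow, mul_assoc]
  exact dvd_mul_of_dvd_left (by exact_mod_cast hd) _

/-- Removing a common factor of the multiplier and the modulus. -/
theorem gauss_reduce (g : ℤ[X]) (a : ℤ) {c q : ℕ} (hc : c ≠ 0) (hq : q ≠ 0) :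
    gauss g ((c : ℤ) * a) (q * c) = gauss g a q := by
  have hq' : (q : ℂ) ≠ 0 := Nat.cast_ne_zero.2 hq
  have hc' : (c : ℂ) ≠ 0 := Nat.cast_ne_zero.2 hc
  rw [gauss_eq, gauss_eq, sum_range_split q c hq]
  have h1 : ∀ x ∈ range q, ∀ y ∈ range c,
      eq' (q * c) ((c : ℤ) * a * g.eval ((x + q * y : ℕ) : ℤ)) = eq' q (a * g.eval (x : ℤ)) := by
    intro x _ y _
    rw [← eq'_eval_mod g a hq (x := x + q * y) (y := (x : ℤ)) ⟨y, by push_cast; ring⟩, eq', eq']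
    congr 1
    have : (c : ℝ) ≠ 0 := Nat.cast_ne_zero.2 hc
    push_cast
    field_simp
  rw [sum_congr rfl fun x hx => sum_congr rfl (h1 x hx)]
  simp only [sum_const, card_range, nsmul_eq_mul, ← mul_sum, Nat.cast_mul]
  field_simp

/-- Decay of the complete sums of the dilates. -/
theorem exists_R_bound (h : ℤ[X]) (k : ℕ) (hk : h.natDegree ≤ k) (u : ℤ[X]) (v : ℕ) (hv : 1 ≤ v)
    (hu : h = X ^ v * u) (hu0 : u.coeff 0 ≠ 0) :
    ∃ C η : ℝ, 1 ≤ C ∧ 0 < η ∧ ∀ q : ℕ, 1 ≤ q → ∀ a : ℤ, Int.gcd a q = 1 → ∀ e : ℕ, 1 ≤ e →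
      |R h a q e| ≤ C * ((((e ^ v : ℕ) : ℝ)) / q) ^ η := by
  obtain ⟨ω, C, η, hω, hW⟩ := exists_weight k (u.coeff 0).natAbs (by omega)
  refine ⟨max C 1, η, le_max_right _ _, hω.delta_pos, fun q hq a ha e he => ?_⟩
  set g : ℤ[X] := X ^ v * u.comp (Polynomial.C (e : ℤ) * X) with hg
  have hdil : dil h e = Polynomial.C ((e : ℤ) ^ v) * g := by
    rw [dil, hu, mul_comp, pow_comp, X_comp, mul_pow, ← C_pow, hg]; ring
  have hgd : g.natDegree ≤ k := by
    have h1 : (dil h e).natDegree ≤ k := by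
      rw [dil]
      refine natDegree_comp_le.trans ?_
      have h2 : (Polynomial.C (e : ℤ) * X).natDegree ≤ 1 :=
        (natDegree_C_mul_le _ _).trans natDegree_X_le
      calc _ ≤ h.natDegree * 1 := Nat.mul_le_mul_left _ h2
        _ ≤ k := by rw [mul_one]; exact hk
    rwa [hdil, natDegree_C_mul (by positivity)] at h1
  have hgv : g.coeff v = u.coeff 0 := by
    rw [hg]
    have := coeff_X_pow_mul (u.comp (Polynomial.C (e : ℤ) * X)) v 0
    rw [zero_add] at this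
    rw [this, coeff_zero_eq_eval_zero, eval_comp, coeff_zero_eq_eval_zero]
    simp
  have hcont : ∀ d : ℕ, (∀ i, 1 ≤ i → (d : ℤ) ∣ g.coeff i) → d ∣ (u.coeff 0).natAbs := by
    intro d hd
    have := hd v hv
    rw [hgv] at this
    exact Int.natCast_dvd.1 this
  obtain ⟨c, q', a', hc, hq', hqe, hco, hle⟩ : ∃ (c q' : ℕ) (a' : ℤ), c ≠ 0 ∧ q' ≠ 0 ∧ q = q' * c ∧
      (Int.gcd a' q' = 1 ∧ (e : ℤ) ^ v * a = (c : ℤ) * a') ∧ c ≤ e ^ v := by
    have hgpos : 0 < Nat.gcd (e ^ v) q := Nat.gcd_pos_of_pos_right _ hq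
    obtain ⟨e', q', hcop, h1, h2⟩ := Nat.exists_coprime (e ^ v) q
    refine ⟨Nat.gcd (e ^ v) q, q', (e' : ℤ) * a, hgpos.ne', ?_, h2, ⟨?_, ?_⟩,
      Nat.gcd_le_left _ (pow_pos he v)⟩
    · rintro rfl
      simp at h2
      omega
    · have ha' : IsCoprime a (q' : ℤ) := by
        have h3 : IsCoprime a (q : ℤ) := Int.isCoprime_iff_gcd_eq_one.2 ha
        rw [h2, Nat.cast_mul] at h3
        exact h3.of_mul_right_left
      exact Int.isCoprime_iff_gcd_eq_one.1 (IsCoprime.mul_left (Nat.Coprime.isCoprime hcop) ha')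
    · have h3 : ((e : ℤ)) ^ v = (e' : ℤ) * (Nat.gcd (e ^ v) q : ℕ) := by exact_mod_cast h1
      rw [h3]; ring
  have hR : gauss (dil h e) a q = gauss g a' q' := by
    rw [← gauss_reduce g a' hc hq', ← hqe, gauss_eq, gauss_eq]
    congr 1
    refine sum_congr rfl fun x _ => congrArg (eq' q) ?_
    rw [hdil, eval_mul, eval_C, ← hco.2]; ring
  have hq'pos : (0 : ℝ) < q' := by exact_mod_cast Nat.pos_of_ne_zero hq'
  have hqR : (0 : ℝ) < q := by exact_mod_cast hq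
  calc |R h a q e| ≤ ‖gauss (dil h e) a q‖ := Complex.abs_re_le_norm _
    _ ≤ wt ω q' := by rw [hR]; exact hW g hgd hcont q' (Nat.pos_of_ne_zero hq') a' hco.1
    _ ≤ C * (q' : ℝ) ^ (-η) := hω.decay q' (Nat.pos_of_ne_zero hq')
    _ ≤ max C 1 * (1 / (q' : ℝ)) ^ η := by
        rw [Real.rpow_neg hq'pos.le, one_div, Real.inv_rpow hq'pos.le]
        exact mul_le_mul_of_nonneg_right (le_max_left _ _) (by positivity)
    _ ≤ _ := by
        refine mul_le_mul_of_nonneg_left (Real.rpow_le_rpow (by positivity) ?_ hω.delta_pos.le)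
          (le_trans zero_le_one (le_max_right _ _))
        rw [div_le_div_iff₀ hq'pos hqR, one_mul]
        have : (c : ℝ) ≤ ((e ^ v : ℕ) : ℝ) := by exact_mod_cast hle
        rw [hqe, Nat.cast_mul, mul_comm (((e ^ v : ℕ) : ℝ))]
        exact mul_le_mul_of_nonneg_left this hq'pos.le

end

end Vale.Agent.P042.Odd
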