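import Vale.Agent.P042.Odd.Complete

/-!
The arithmetic and archimedean factors of the van der Corput weights of an odd polynomial.
-/

open Finset Polynomial ArithmeticFunction

namespace Vale.Agent.P042.Odd

open Vale.Agent.P042.Upper

noncomputable section

/-- The Möbius twist of the complete sums. -/
def G (h : ℤ[X]) (a : ℤ) (q d : ℕ) : ℝ :=
  ∑ e ∈ d.divisors, (moebius (d / e) : ℝ) * R h a q e

/-- The truncated arithmetic factor. -/
def F (h : ℤ[X]) (δ : ℝ) (D : ℕ) (a : ℤ) (q : ℕ) : ℝ :=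
  ∑ d ∈ Icc 1 D, (d : ℝ) ^ (-δ) * G h a q d

/-- The average of `e (β h n)` over the dyadic block at `2 ^ m`. -/
def phi (h : ℤ[X]) (β : ℝ) (m : ℕ) : ℂ :=
  (∑ n ∈ Ioc ((2 : ℕ) ^ m) (2 ^ (m + 1)), ee (β * (h.eval (n : ℤ) : ℤ))) / (2 : ℂ) ^ m

/-- The mixture of scales. -/
def arch (h : ℤ[X]) (δ β : ℝ) (K u : ℕ) : ℝ :=
  ∑ i ∈ range (u + 1),
    (1 - (2 : ℝ) ^ (-δ)) * ((2 : ℝ) ^ (-δ)) ^ i * (phi h β (K * u - i)).re

end

end Vale.Agent.P042.Odd
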